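import Crest.Agent.Helper2.BoolTable

/-!
# Biased fixed-point gadget criterion for S0085

For a Boolean function `g` on `α → Bool` let `nc g T` be its normalised Fourier–Walsh coefficients
and `Gp g t = ∑ T, nc g T * t ^ |T|` the *bias polynomial* in the sign convention: if the inputs of
`g` are independent with mean `t`, the output has mean `Gp g t`; `Dp g` is its derivative.

Main result `exists_of_biased_gadget`: if `g` has all coefficients above level `d` vanishing and
there is `t ∈ (-1, 1)` with `Gp g t = t` and `d < (Dp g t) ^ 2`, then the conclusion of S0085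
holds.  (For `t = 0` this is the balanced gadget criterion.)  The proof composes `g` with itself
`k` times on top of a threshold function whose mean approximates `t`.
-/

set_option autoImplicit false

namespace Crest.Agent.Helper2.BoolBiased

open Finset
open Crest.Agent.Helper2.BoolCompose Crest.Agent.Helper2.BoolTable

noncomputable section

/-! ### Bias polynomial -/

section Defs

variable {α : Type*} [Fintype α] [DecidableEq α]

/-- Normalised coefficient. -/
def nc (g : (α → Bool) → Bool) (T : Finset α) : ℝ := coeff g T / 2 ^ Fintype.card α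

/-- The mean (in the sign convention). -/
def mean (g : (α → Bool) → Bool) : ℝ := nc g ∅

/-- Bias polynomial. -/
def Gp (g : (α → Bool) → Bool) (t : ℝ) : ℝ := ∑ T : Finset α, nc g T * t ^ T.card

/-- Derivative of the bias polynomial. -/
def Dp (g : (α → Bool) → Bool) (t : ℝ) : ℝ :=
  ∑ T : Finset α, nc g T * (T.card * t ^ (T.card - 1))

lemma continuous_Dp (g : (α → Bool) → Bool) : Continuous (Dp g) := by
  unfold Dp
  fun_prop

lemma abs_pow_sub_pow_le {s t : ℝ} (hs : |s| ≤ 1) (ht : |t| ≤ 1) (k : ℕ) :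
    |s ^ k - t ^ k| ≤ k * |s - t| := by
  induction k with
  | zero => simp
  | succ k ih =>
    have h1 : s ^ (k + 1) - t ^ (k + 1) = s * (s ^ k - t ^ k) + t ^ k * (s - t) := by ring
    have h2 : |t ^ k| ≤ 1 := by
      rw [abs_pow]
      exact pow_le_one₀ (abs_nonneg _) ht
    have h3 : |s * (s ^ k - t ^ k)| ≤ k * |s - t| := by
      rw [abs_mul]
      calc |s| * |s ^ k - t ^ k| ≤ 1 * |s ^ k - t ^ k| :=
            mul_le_mul_of_nonneg_right hs (abs_nonneg _)
        _ = |s ^ k - t ^ k| := one_mul _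
        _ ≤ k * |s - t| := ih
    have h4 : |t ^ k * (s - t)| ≤ |s - t| := by
      rw [abs_mul]
      calc |t ^ k| * |s - t| ≤ 1 * |s - t| := mul_le_mul_of_nonneg_right h2 (abs_nonneg _)
        _ = |s - t| := one_mul _
    rw [h1]
    push_cast
    calc |s * (s ^ k - t ^ k) + t ^ k * (s - t)|
        ≤ |s * (s ^ k - t ^ k)| + |t ^ k * (s - t)| := abs_add_le _ _
      _ ≤ k * |s - t| + |s - t| := add_le_add h3 h4
      _ = (k + 1) * |s - t| := by ring

/-- Lipschitz constant of the bias polynomial on `[-1, 1]`. -/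
def Lip (g : (α → Bool) → Bool) : ℝ := ∑ T : Finset α, |nc g T| * T.card

lemma Lip_nonneg (g : (α → Bool) → Bool) : 0 ≤ Lip g :=
  Finset.sum_nonneg fun _ _ => mul_nonneg (abs_nonneg _) (Nat.cast_nonneg _)

lemma Gp_lipschitz (g : (α → Bool) → Bool) {s t : ℝ} (hs : |s| ≤ 1) (ht : |t| ≤ 1) :
    |Gp g s - Gp g t| ≤ Lip g * |s - t| := by
  unfold Gp Lip
  rw [← Finset.sum_sub_distrib, Finset.sum_mul]
  refine (Finset.abs_sum_le_sum_abs _ _).trans (Finset.sum_le_sum fun T _ => ?_)
  rw [← mul_sub, abs_mul, mul_assoc]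
  exact mul_le_mul_of_nonneg_left (abs_pow_sub_pow_le hs ht _) (abs_nonneg _)

end Defs

/-! ### Composition with an arbitrary (not necessarily balanced) inner function -/

section Comp

variable {α β : Type*} [Fintype α] [DecidableEq α] [Fintype β] [DecidableEq β]

omit [Fintype α] in
lemma fib_empty (a : α) : fib (∅ : Finset (α × β)) a = ∅ := by
  ext b
  simp [mem_fib]

omit [Fintype α] in
lemma prod_ite_mem_const (U T : Finset α) (c B : ℝ) :
    ∏ a ∈ U, (if a ∈ T then c else B) = c ^ (U ∩ T).card * B ^ (U \ T).card := by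
  rw [Finset.prod_ite, Finset.prod_const, Finset.prod_const, Finset.filter_mem_eq_inter,
    Finset.filter_notMem_eq_sdiff]

/-- Degree bounds multiply under composition (no balance needed). -/
theorem degLE_comp' {g : (α → Bool) → Bool} {h : (β → Bool) → Bool} {dg dh : ℕ}
    (hg : DegLE g dg) (hh : DegLE h dh) : DegLE (comp g h) (dg * dh) := by
  intro S hS
  rw [coeff_comp]
  refine div_eq_zero_iff.mpr (Or.inl (Finset.sum_eq_zero fun T _ => ?_))
  by_cases h2 : ∃ a, a ∉ T ∧ fib S a ≠ ∅
  · obtain ⟨a, haT, hfa⟩ := h2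
    refine mul_eq_zero_of_right _ (Finset.prod_eq_zero (Finset.mem_univ a) ?_)
    simp [haT, hfa]
  push Not at h2
  by_cases h3 : dg < T.card
  · rw [hg T h3, zero_mul]
  push Not at h3
  have h4 : ∃ a ∈ T, dh < (fib S a).card := by
    by_contra hcon
    push Not at hcon
    have hsum : S.card = ∑ a ∈ T, (fib S a).card := by
      rw [card_eq_sum_fib]
      symm
      refine Finset.sum_subset (Finset.subset_univ T) fun a _ haT => ?_
      rw [h2 a haT, Finset.card_empty]
    have : S.card ≤ dg * dh := by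
      rw [hsum]
      calc ∑ a ∈ T, (fib S a).card ≤ ∑ _a ∈ T, dh := Finset.sum_le_sum hcon
        _ = T.card * dh := by rw [Finset.sum_const, smul_eq_mul]
        _ ≤ dg * dh := Nat.mul_le_mul_right _ h3
    omega
  obtain ⟨a, haT, hda⟩ := h4
  refine mul_eq_zero_of_right _ (Finset.prod_eq_zero (Finset.mem_univ a) ?_)
  simp [haT, hh _ hda]

lemma pow_card_split (T : Finset α) (B : ℝ) :
    B ^ Fintype.card α = B ^ T.card * B ^ (Finset.univ \ T).card := by
  rw [← pow_add]
  congr 1
  rw [← Finset.card_union_of_disjoint Finset.disjoint_sdiff, Finset.union_sdiff_of_subset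
    (Finset.subset_univ T), Finset.card_univ]

/-- The mean of a composition is the bias polynomial of the outer function at the mean of the
inner function. -/
theorem mean_comp (g : (α → Bool) → Bool) (h : (β → Bool) → Bool) :
    mean (comp g h) = Gp g (mean h) := by
  unfold mean Gp
  unfold nc
  rw [coeff_comp, Fintype.card_prod, Finset.sum_div, Finset.sum_div]
  refine Finset.sum_congr rfl fun T _ => ?_
  have e1 : ∏ a, (if a ∈ T then coeff h (fib (∅ : Finset (α × β)) a)
        else if fib (∅ : Finset (α × β)) a = ∅ then (2 : ℝ) ^ Fintype.card β else 0)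
      = ∏ a ∈ Finset.univ, (if a ∈ T then coeff h ∅ else (2 : ℝ) ^ Fintype.card β) := by
    refine Finset.prod_congr rfl fun a _ => ?_
    simp [fib_empty]
  rw [e1, prod_ite_mem_const, Finset.univ_inter]
  have e2 : (2 : ℝ) ^ (Fintype.card α * Fintype.card β) = (2 ^ Fintype.card β) ^ Fintype.card α := by
    rw [← pow_mul, mul_comm]
  rw [e2, pow_card_split T ((2 : ℝ) ^ Fintype.card β), div_pow]
  have hB : ((2 : ℝ) ^ Fintype.card β) ≠ 0 := by positivity
  have hA : ((2 : ℝ) ^ Fintype.card α) ≠ 0 := by positivity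
  field_simp

/-- Singleton coefficients of a composition. -/
lemma coeff_comp_singleton' (g : (α → Bool) → Bool) (h : (β → Bool) → Bool) (a₀ : α) (b₀ : β) :
    coeff (comp g h) {(a₀, b₀)} =
      (∑ T : Finset α, if a₀ ∈ T then coeff g T * (coeff h {b₀} * (coeff h ∅) ^ (T.card - 1) *
        ((2 : ℝ) ^ Fintype.card β) ^ (Finset.univ \ T).card) else 0) / 2 ^ Fintype.card α := by
  rw [coeff_comp]
  congr 1
  refine Finset.sum_congr rfl fun T _ => ?_
  by_cases ha₀ : a₀ ∈ T
  · rw [if_pos ha₀]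
    congr 1
    rw [← Finset.mul_prod_erase Finset.univ _ (Finset.mem_univ a₀)]
    have hrest : ∀ a ∈ (Finset.univ : Finset α).erase a₀,
        (if a ∈ T then coeff h (fib ({(a₀, b₀)} : Finset (α × β)) a)
          else if fib ({(a₀, b₀)} : Finset (α × β)) a = ∅ then (2 : ℝ) ^ Fintype.card β else 0)
          = (if a ∈ T then coeff h ∅ else (2 : ℝ) ^ Fintype.card β) := by
      intro a ha
      have hne : a ≠ a₀ := Finset.ne_of_mem_erase ha
      simp [fib_singleton, hne]
    rw [Finset.prod_congr rfl hrest, prod_ite_mem_const]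
    have hc1 : ((Finset.univ : Finset α).erase a₀ ∩ T).card = T.card - 1 := by
      have : (Finset.univ : Finset α).erase a₀ ∩ T = T.erase a₀ := by
        ext a
        simp only [Finset.mem_inter, Finset.mem_erase, Finset.mem_univ, and_true]
      rw [this, Finset.card_erase_of_mem ha₀]
    have hc2 : (Finset.univ : Finset α).erase a₀ \ T = Finset.univ \ T := by
      ext a
      simp only [Finset.mem_sdiff, Finset.mem_erase, Finset.mem_univ, and_true, true_and]
      constructor
      · exact fun hh => hh.2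
      · exact fun hh => ⟨fun hEq => hh (hEq ▸ ha₀), hh⟩
    rw [hc1, hc2]
    simp [ha₀, fib_singleton]
    ring
  · rw [if_neg ha₀]
    refine mul_eq_zero_of_right _ (Finset.prod_eq_zero (Finset.mem_univ a₀) ?_)
    simp [ha₀, fib_singleton]

/-- Level-one sum of a composition: derivative of the bias polynomial of the outer function at
the mean of the inner function, times the level-one sum of the inner function. -/
theorem Wsum_comp' (g : (α → Bool) → Bool) (h : (β → Bool) → Bool) :
    Wsum (comp g h) = Dp g (mean h) * Wsum h := by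
  unfold Wsum Dp mean nc
  rw [Fintype.sum_prod_type, Finset.sum_mul_sum]
  have key : ∀ (a₀ : α) (b₀ : β),
      coeff (comp g h) {(a₀, b₀)} / 2 ^ Fintype.card (α × β) =
        ∑ T : Finset α, (if a₀ ∈ T then coeff g T / 2 ^ Fintype.card α *
          (coeff h ∅ / 2 ^ Fintype.card β) ^ (T.card - 1) else 0) *
            (coeff h {b₀} / 2 ^ Fintype.card β) := by
    intro a₀ b₀
    rw [coeff_comp_singleton', Fintype.card_prod, Finset.sum_div, Finset.sum_div]
    refine Finset.sum_congr rfl fun T _ => ?_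
    by_cases ha₀ : a₀ ∈ T
    · simp only [if_pos ha₀]
      have e2 : (2 : ℝ) ^ (Fintype.card α * Fintype.card β) =
          (2 ^ Fintype.card β) ^ Fintype.card α := by
        rw [← pow_mul, mul_comm]
      have hT : 1 ≤ T.card := Finset.card_pos.mpr ⟨a₀, ha₀⟩
      have e3 : ((2 : ℝ) ^ Fintype.card β) ^ T.card =
          ((2 : ℝ) ^ Fintype.card β) ^ (T.card - 1) * 2 ^ Fintype.card β := by
        rw [← pow_succ, Nat.sub_add_cancel hT]
      rw [e2, pow_card_split T ((2 : ℝ) ^ Fintype.card β), e3, div_pow]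
      have hB : ((2 : ℝ) ^ Fintype.card β) ≠ 0 := by positivity
      have hA : ((2 : ℝ) ^ Fintype.card α) ≠ 0 := by positivity
      field_simp
    · simp only [if_neg ha₀]
      simp
  have e4 : ∑ a₀ : α, ∑ b₀ : β, coeff (comp g h) {(a₀, b₀)} / 2 ^ Fintype.card (α × β)
      = ∑ a₀ : α, ∑ b₀ : β, (∑ T : Finset α, (if a₀ ∈ T then coeff g T / 2 ^ Fintype.card α *
          (coeff h ∅ / 2 ^ Fintype.card β) ^ (T.card - 1) else 0)) *
            (coeff h {b₀} / 2 ^ Fintype.card β) := by
    refine Finset.sum_congr rfl fun a₀ _ => Finset.sum_congr rfl fun b₀ _ => ?_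
    rw [key, Finset.sum_mul]
  rw [e4]
  simp only [← Finset.mul_sum, ← Finset.sum_mul]
  congr 1
  rw [Finset.sum_comm]
  refine Finset.sum_congr rfl fun T _ => ?_
  rw [Finset.sum_ite_mem, Finset.univ_inter, Finset.sum_const, nsmul_eq_mul]
  ring

end Comp

/-! ### Negation and reindexing -/

section Misc

variable {ι κ : Type*} [Fintype ι] [DecidableEq ι] [Fintype κ] [DecidableEq κ]

lemma coeff_not (f : (ι → Bool) → Bool) (S : Finset ι) :
    coeff (fun x => !(f x)) S = -coeff f S := by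
  unfold coeff
  rw [← Finset.sum_neg_distrib]
  refine Finset.sum_congr rfl fun x _ => ?_
  have h1 : sg (!(f x)) = -sg (f x) := by cases f x <;> simp
  rw [h1]
  ring

lemma degLE_not {f : (ι → Bool) → Bool} {d : ℕ} (hf : DegLE f d) :
    DegLE (fun x => !(f x)) d := by
  intro S hS
  rw [coeff_not, hf S hS, neg_zero]

lemma Wsum_not (f : (ι → Bool) → Bool) : Wsum (fun x => !(f x)) = -Wsum f := by
  unfold Wsum
  rw [← Finset.sum_neg_distrib]
  refine Finset.sum_congr rfl fun i _ => ?_
  rw [coeff_not, neg_div]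

lemma mean_reindex (e : ι ≃ κ) (f : (ι → Bool) → Bool) : mean (reindex e f) = mean f := by
  unfold mean nc
  rw [coeff_reindex, Finset.map_empty, Fintype.card_congr e]

lemma coeff_const (b : Bool) (S : Finset ι) :
    coeff (fun _ : ι → Bool => b) S = sg b * (if S = ∅ then 2 ^ Fintype.card ι else 0) := by
  unfold coeff
  rw [← Finset.mul_sum, sum_chi]

end Misc

/-! ### From an unbounded ratio to the literal statement -/

/-- A function with `C * √e < |Wsum f|` and degree bound `e` gives the literal S0085 witness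
for this `C`. -/
theorem conclusion_of {n : ℕ} (f : (Fin n → Bool) → Bool) (e : ℕ) (hdeg : DegLE f e)
    (C : ℝ) (hC : 0 < C) (hW : C * Real.sqrt e < |Wsum f|) :
    ∃ n : ℕ, ∃ f : (Fin n → Bool) → Bool, ∃ d : ℕ,
      (∃ x y, f x ≠ f y) ∧
      (∀ S : Finset (Fin n), d < S.card →
        ∑ x : Fin n → Bool, ((if f x then (1 : ℝ) else -1) *
          ∏ i ∈ S, (if x i then (1 : ℝ) else -1)) = 0) ∧
      C * Real.sqrt d <
        ∑ i : Fin n, (∑ x : Fin n → Bool, ((if f x then (1 : ℝ) else -1) *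
          (if x i then (1 : ℝ) else -1))) / 2 ^ n := by
  -- a version with positive level-one sum
  obtain ⟨f', hdeg', hW'⟩ : ∃ f' : (Fin n → Bool) → Bool, DegLE f' e ∧
      C * Real.sqrt e < Wsum f' := by
    by_cases hsign : 0 ≤ Wsum f
    · exact ⟨f, hdeg, by rwa [abs_of_nonneg hsign] at hW⟩
    · refine ⟨fun x => !(f x), degLE_not hdeg, ?_⟩
      rw [Wsum_not]
      rwa [abs_of_neg (not_le.mp hsign)] at hW
  have hpos : 0 < Wsum f' := lt_of_le_of_lt (mul_nonneg hC.le (Real.sqrt_nonneg _)) hW'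
  refine ⟨n, f', e, ?_, ?_, ?_⟩
  · by_contra hcon
    push Not at hcon
    have h0 := Wsum_eq_zero_of_const f' hcon
    rw [h0] at hpos
    exact lt_irrefl _ hpos
  · intro S hS
    exact hdeg' S hS
  · have hWf : Wsum f' = ∑ i : Fin n, (∑ x : Fin n → Bool, ((if f' x then (1 : ℝ) else -1) *
          (if x i then (1 : ℝ) else -1))) / 2 ^ n := by
      unfold Wsum coeff chi
      simp only [Finset.prod_singleton, Fintype.card_fin]
      rfl
    rw [← hWf]
    exact hW'

/-! ### Threshold functions as inner functions -/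

section Threshold

lemma coeff_map_succ {n : ℕ} (f : (Fin (n + 1) → Bool) → Bool) (S : Finset (Fin n)) :
    coeff f (S.map (Fin.succEmb n)) =
      coeff (fun y => f (Fin.cons false y)) S + coeff (fun y => f (Fin.cons true y)) S := by
  rw [coeff_eq_cast, coeffZ_map_succ, coeff_eq_cast, coeff_eq_cast]
  push_cast
  rfl

lemma coeff_insert_zero {n : ℕ} (f : (Fin (n + 1) → Bool) → Bool) (S : Finset (Fin n)) :
    coeff f (insert 0 (S.map (Fin.succEmb n))) =
      coeff (fun y => f (Fin.cons true y)) S - coeff (fun y => f (Fin.cons false y)) S := by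
  rw [coeff_eq_cast, coeffZ_insert_zero, coeff_eq_cast, coeff_eq_cast]
  push_cast
  rfl

lemma sum_singleton_succ {n : ℕ} (f : (Fin (n + 1) → Bool) → Bool) :
    ∑ i, coeff f {i} =
      (coeff (fun y => f (Fin.cons true y)) ∅ - coeff (fun y => f (Fin.cons false y)) ∅) +
      ∑ j : Fin n, (coeff (fun y => f (Fin.cons false y)) {j} +
        coeff (fun y => f (Fin.cons true y)) {j}) := by
  rw [Fin.sum_univ_succ]
  congr 1
  · rw [← coeff_insert_zero]
    simp
  · refine Finset.sum_congr rfl fun j _ => ?_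
    rw [← coeff_map_succ, Finset.map_singleton]
    rfl

/-- The threshold function `x ↦ [index of x < N]` (coordinate `0` most significant). -/
def thr : (m : ℕ) → ℕ → (Fin m → Bool) → Bool
  | 0, N, _ => decide (0 < N)
  | m + 1, N, x =>
      if N ≤ 2 ^ m then (!(x 0) && thr m N (Fin.tail x))
      else (!(x 0) || thr m (N - 2 ^ m) (Fin.tail x))

lemma thr_cons_false_le (m N : ℕ) (h : N ≤ 2 ^ m) :
    (fun y : Fin m → Bool => thr (m + 1) N (Fin.cons false y)) = thr m N := by
  funext y
  simp [thr, h]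

lemma thr_cons_true_le (m N : ℕ) (h : N ≤ 2 ^ m) :
    (fun y : Fin m → Bool => thr (m + 1) N (Fin.cons true y)) = fun _ => false := by
  funext y
  simp [thr, h]

lemma thr_cons_false_gt (m N : ℕ) (h : ¬ N ≤ 2 ^ m) :
    (fun y : Fin m → Bool => thr (m + 1) N (Fin.cons false y)) = fun _ => true := by
  funext y
  simp [thr, h]

lemma thr_cons_true_gt (m N : ℕ) (h : ¬ N ≤ 2 ^ m) :
    (fun y : Fin m → Bool => thr (m + 1) N (Fin.cons true y)) = thr m (N - 2 ^ m) := by
  funext y
  simp [thr, h]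

lemma coeff_thr_empty : ∀ (m N : ℕ), N ≤ 2 ^ m →
    coeff (thr m N) ∅ = 2 * (N : ℝ) - 2 ^ m
  | 0, N, hN => by
    have hN' : N = 0 ∨ N = 1 := by
      simp at hN
      omega
    unfold coeff chi
    rcases hN' with rfl | rfl
    · simp [thr]
    · simp [thr]
      norm_num
  | m + 1, N, hN => by
    have h0 : (∅ : Finset (Fin (m + 1))) = (∅ : Finset (Fin m)).map (Fin.succEmb m) := by simp
    rw [h0, coeff_map_succ]
    by_cases h : N ≤ 2 ^ m
    · rw [thr_cons_false_le m N h, thr_cons_true_le m N h, coeff_thr_empty m N h, coeff_const]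
      simp
      ring
    · rw [thr_cons_false_gt m N h, thr_cons_true_gt m N h, coeff_const,
        coeff_thr_empty m (N - 2 ^ m) (by rw [pow_succ] at hN; omega)]
      push Not at h
      rw [Nat.cast_sub h.le]
      simp
      ring

lemma sum_singleton_thr : ∀ (m N : ℕ), N ≤ 2 ^ m →
    ∑ i, coeff (thr m N) {i} ≤ -((2 : ℝ) ^ m - |2 * (N : ℝ) - 2 ^ m|)
  | 0, N, hN => by
    have hN' : N = 0 ∨ N = 1 := by
      simp at hN
      omega
    rcases hN' with rfl | rfl
    · simp
    · simp
      norm_num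
  | m + 1, N, hN => by
    rw [sum_singleton_succ]
    have hNr : (N : ℝ) ≤ 2 ^ (m + 1) := by exact_mod_cast hN
    have hp : (2 : ℝ) ^ (m + 1) = 2 * 2 ^ m := by ring
    have hN0 : (0 : ℝ) ≤ N := Nat.cast_nonneg _
    by_cases h : N ≤ 2 ^ m
    · rw [thr_cons_false_le m N h, thr_cons_true_le m N h, coeff_thr_empty m N h]
      have ih := sum_singleton_thr m N h
      have hNm : (N : ℝ) ≤ 2 ^ m := by exact_mod_cast h
      have h1 : ∑ j : Fin m, (coeff (thr m N) {j} + coeff (fun _ : Fin m → Bool => false) {j})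
          = ∑ j : Fin m, coeff (thr m N) {j} := by
        refine Finset.sum_congr rfl fun j _ => ?_
        rw [coeff_const]
        simp
      rw [h1, coeff_const]
      have h2 : |2 * (N : ℝ) - 2 ^ m| ≤ 2 ^ m := by
        rw [abs_le]
        constructor <;> linarith
      have h3 : |2 * (N : ℝ) - 2 ^ (m + 1)| = 2 ^ (m + 1) - 2 * (N : ℝ) := by
        rw [abs_of_nonpos (by linarith)]
        ring
      rw [h3]
      have h4 : sg false * (if (∅ : Finset (Fin m)) = ∅ then (2 : ℝ) ^ Fintype.card (Fin m) else 0)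
          = -2 ^ m := by simp
      rw [h4]
      linarith
    · rw [thr_cons_false_gt m N h, thr_cons_true_gt m N h]
      push Not at h
      have hle : N - 2 ^ m ≤ 2 ^ m := by rw [pow_succ] at hN; omega
      rw [coeff_thr_empty m (N - 2 ^ m) hle]
      have ih := sum_singleton_thr m (N - 2 ^ m) hle
      have hNm : (2 : ℝ) ^ m < N := by exact_mod_cast h
      have h1 : ∑ j : Fin m, (coeff (fun _ : Fin m → Bool => true) {j} +
          coeff (thr m (N - 2 ^ m)) {j}) = ∑ j : Fin m, coeff (thr m (N - 2 ^ m)) {j} := by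
        refine Finset.sum_congr rfl fun j _ => ?_
        rw [coeff_const]
        simp
      rw [h1, coeff_const]
      have hcast : ((N - 2 ^ m : ℕ) : ℝ) = (N : ℝ) - 2 ^ m := by
        rw [Nat.cast_sub h.le]
        push_cast
        rfl
      rw [hcast] at ih ⊢
      have h2 : |2 * ((N : ℝ) - 2 ^ m) - 2 ^ m| ≤ 2 ^ m := by
        rw [abs_le]
        constructor <;> linarith
      have h3 : |2 * (N : ℝ) - 2 ^ (m + 1)| = 2 * (N : ℝ) - 2 ^ (m + 1) := by
        rw [abs_of_nonneg (by linarith)]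
      rw [h3]
      have h4 : sg true * (if (∅ : Finset (Fin m)) = ∅ then (2 : ℝ) ^ Fintype.card (Fin m) else 0)
          = 2 ^ m := by simp
      rw [h4]
      linarith

lemma degLE_thr (m N : ℕ) : DegLE (thr m N) m := by
  intro S hS
  have := Finset.card_le_univ S
  simp at this
  omega

lemma mean_thr (m N : ℕ) (hN : N ≤ 2 ^ m) : mean (thr m N) = 2 * (N : ℝ) / 2 ^ m - 1 := by
  unfold mean nc
  rw [coeff_thr_empty m N hN, Fintype.card_fin]
  have : (2 : ℝ) ^ m ≠ 0 := by positivity
  field_simp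

lemma abs_Wsum_thr (m N : ℕ) (hN : N ≤ 2 ^ m) : 1 - |mean (thr m N)| ≤ |Wsum (thr m N)| := by
  have h1 := sum_singleton_thr m N hN
  have h2m : (0 : ℝ) < 2 ^ m := by positivity
  have hW : Wsum (thr m N) = (∑ i, coeff (thr m N) {i}) / 2 ^ m := by
    unfold Wsum
    rw [Finset.sum_div, Fintype.card_fin]
  have hmean : |mean (thr m N)| = |2 * (N : ℝ) - 2 ^ m| / 2 ^ m := by
    unfold mean nc
    rw [coeff_thr_empty m N hN, Fintype.card_fin, abs_div, abs_of_pos h2m]
  have h3 : Wsum (thr m N) ≤ -(1 - |mean (thr m N)|) := by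
    rw [hW, hmean, div_le_iff₀ h2m]
    have : -(1 - |2 * (N : ℝ) - 2 ^ m| / 2 ^ m) * 2 ^ m = -((2 : ℝ) ^ m - |2 * (N : ℝ) - 2 ^ m|) := by
      field_simp
    rw [this]
    exact h1
  have h4 := neg_abs_le (Wsum (thr m N))
  linarith

/-- Means of threshold functions approximate every `t ∈ (-1, 1)`. -/
lemma exists_thr_near (t : ℝ) (ht : |t| < 1) (m : ℕ) :
    ∃ N : ℕ, N ≤ 2 ^ (m + 1) ∧ |mean (thr (m + 1) N) - t| ≤ 1 / 2 ^ m := by
  have ht' := abs_lt.mp ht
  have h2m : (0 : ℝ) < 2 ^ m := by positivity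
  have hnn : 0 ≤ (t + 1) * 2 ^ m := mul_nonneg (by linarith) h2m.le
  refine ⟨⌊(t + 1) * 2 ^ m⌋₊, ?_, ?_⟩
  · have h1 : (⌊(t + 1) * 2 ^ m⌋₊ : ℝ) ≤ (t + 1) * 2 ^ m := Nat.floor_le hnn
    have h2 : (⌊(t + 1) * 2 ^ m⌋₊ : ℝ) ≤ 2 ^ (m + 1) := by
      rw [pow_succ]
      nlinarith
    exact_mod_cast h2
  · have hN : ⌊(t + 1) * 2 ^ m⌋₊ ≤ 2 ^ (m + 1) := by
      have h1 : (⌊(t + 1) * 2 ^ m⌋₊ : ℝ) ≤ (t + 1) * 2 ^ m := Nat.floor_le hnn
      have h2 : (⌊(t + 1) * 2 ^ m⌋₊ : ℝ) ≤ 2 ^ (m + 1) := by
        rw [pow_succ]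
        nlinarith
      exact_mod_cast h2
    rw [mean_thr _ _ hN]
    have h1 : (⌊(t + 1) * 2 ^ m⌋₊ : ℝ) ≤ (t + 1) * 2 ^ m := Nat.floor_le hnn
    have h2 : (t + 1) * 2 ^ m < (⌊(t + 1) * 2 ^ m⌋₊ : ℝ) + 1 := Nat.lt_floor_add_one _
    have h3 : 2 * (⌊(t + 1) * 2 ^ m⌋₊ : ℝ) / 2 ^ (m + 1) - 1 - t =
        ((⌊(t + 1) * 2 ^ m⌋₊ : ℝ) - (t + 1) * 2 ^ m) / 2 ^ m := by
      rw [pow_succ]
      field_simp
      ring
    rw [h3, abs_div, abs_of_pos h2m, div_le_div_iff_of_pos_right h2m, abs_le]
    constructor <;> linarith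

end Threshold

/-! ### Iteration -/

section Iterate

variable {α : Type*} [Fintype α] [DecidableEq α]

/-- `k`-fold composition of `g` on top of an arbitrary inner function. -/
theorem exists_iter_biased (g : (α → Bool) → Bool) (d : ℕ) (hdeg : DegLE g d) :
    ∀ (k : ℕ) {n₀ : ℕ} (h : (Fin n₀ → Bool) → Bool) (e₀ : ℕ), DegLE h e₀ →
      ∃ (n : ℕ) (f : (Fin n → Bool) → Bool), DegLE f (d ^ k * e₀) ∧
        mean f = (Gp g)^[k] (mean h) ∧
        Wsum f = (∏ i ∈ Finset.range k, Dp g ((Gp g)^[i] (mean h))) * Wsum h := by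
  intro k
  induction k with
  | zero =>
    intro n₀ h e₀ he₀
    exact ⟨n₀, h, by simpa using he₀, rfl, by simp⟩
  | succ k ih =>
    intro n₀ h e₀ he₀
    obtain ⟨n, f, hfd, hfm, hfW⟩ := ih h e₀ he₀
    refine ⟨Fintype.card (α × Fin n), reindex (Fintype.equivFin (α × Fin n)) (comp g f), ?_, ?_, ?_⟩
    · have := degLE_reindex (Fintype.equivFin (α × Fin n)) (degLE_comp' hdeg hfd)
      rw [pow_succ, mul_comm (d ^ k) d, mul_assoc]
      exact this
    · rw [mean_reindex, mean_comp, hfm, Function.iterate_succ_apply']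
    · rw [Wsum_reindex, Wsum_comp', hfm, hfW, Finset.prod_range_succ]
      ring

/-- Exponential growth beats the square root of a linear function. -/
lemma exists_pow_gt_sqrt {ρ : ℝ} (hρ : 1 < ρ) (K a b : ℝ) (ha : 0 ≤ a) (hb : 0 ≤ b) :
    ∃ k : ℕ, 1 ≤ k ∧ K * Real.sqrt (a * k + b) < ρ ^ k := by
  set ε := ρ - 1 with hε
  have hεpos : 0 < ε := by linarith
  obtain ⟨k, hk⟩ := exists_nat_gt (K ^ 2 * (a + b) / ε ^ 2 + 1)
  have hk1 : (1 : ℝ) < k := by
    have : 0 ≤ K ^ 2 * (a + b) / ε ^ 2 := by positivity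
    linarith
  have hk1' : 1 ≤ k := by exact_mod_cast hk1.le
  refine ⟨k, hk1', ?_⟩
  have hbern : 1 + (k : ℝ) * ε ≤ ρ ^ k := by
    have := one_add_mul_le_pow (show (-2 : ℝ) ≤ ε by linarith) k
    have hρ' : 1 + ε = ρ := by rw [hε]; ring
    rwa [hρ'] at this
  have hkpos : (0 : ℝ) < k := by linarith
  have h1 : K ^ 2 * (a + b) < (k : ℝ) * ε ^ 2 := by
    have : K ^ 2 * (a + b) / ε ^ 2 < k := by linarith
    rwa [div_lt_iff₀ (by positivity)] at this
  have h2 : K ^ 2 * (a * k + b) < (1 + (k : ℝ) * ε) ^ 2 := by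
    have h3 : K ^ 2 * (a * k + b) ≤ K ^ 2 * (a + b) * k := by
      have : a * k + b ≤ (a + b) * k := by nlinarith
      calc K ^ 2 * (a * k + b) ≤ K ^ 2 * ((a + b) * k) :=
            mul_le_mul_of_nonneg_left this (by positivity)
        _ = K ^ 2 * (a + b) * k := by ring
    have h4 : K ^ 2 * (a + b) * k < (k : ℝ) * ε ^ 2 * k := mul_lt_mul_of_pos_right h1 hkpos
    nlinarith
  have h5 : 0 ≤ a * k + b := by positivity
  have h6 : (K * Real.sqrt (a * k + b)) ^ 2 < (1 + (k : ℝ) * ε) ^ 2 := by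
    rw [mul_pow, Real.sq_sqrt h5]
    exact h2
  have h7 : K * Real.sqrt (a * k + b) < 1 + (k : ℝ) * ε :=
    lt_of_pow_lt_pow_left₀ 2 (by positivity) h6
  linarith

/-- **Biased fixed-point gadget criterion for S0085.** -/
theorem exists_of_biased_gadget (g : (α → Bool) → Bool) (d : ℕ) (hdeg : DegLE g d)
    (t : ℝ) (ht : |t| < 1) (hfix : Gp g t = t) (hslope : (d : ℝ) < (Dp g t) ^ 2)
    (C : ℝ) (hC : 0 < C) :
    ∃ n : ℕ, ∃ f : (Fin n → Bool) → Bool, ∃ d : ℕ,
      (∃ x y, f x ≠ f y) ∧
      (∀ S : Finset (Fin n), d < S.card →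
        ∑ x : Fin n → Bool, ((if f x then (1 : ℝ) else -1) *
          ∏ i ∈ S, (if x i then (1 : ℝ) else -1)) = 0) ∧
      C * Real.sqrt d <
        ∑ i : Fin n, (∑ x : Fin n → Bool, ((if f x then (1 : ℝ) else -1) *
          (if x i then (1 : ℝ) else -1))) / 2 ^ n := by
  -- `d ≥ 1`
  have hd1 : 1 ≤ d := by
    by_contra hd0
    have hd0' : d = 0 := by omega
    subst hd0'
    have hD : Dp g t = 0 := by
      unfold Dp
      refine Finset.sum_eq_zero fun T _ => ?_
      by_cases hT : T.card = 0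
      · rw [hT]
        simp
      · have : nc g T = 0 := by
          unfold nc
          rw [hdeg T (Nat.pos_of_ne_zero hT), zero_div]
        rw [this, zero_mul]
    rw [hD] at hslope
    norm_num at hslope
  set sd := Real.sqrt d with hsd
  have hsd1 : 1 ≤ sd := by
    rw [hsd]
    have : (1 : ℝ) ≤ d := by exact_mod_cast hd1
    calc (1 : ℝ) = Real.sqrt 1 := Real.sqrt_one.symm
      _ ≤ Real.sqrt d := Real.sqrt_le_sqrt this
  set lam := |Dp g t| with hlam
  have hlam_gt : sd < lam := by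
    rw [hsd, hlam, ← Real.sqrt_sq_eq_abs]
    exact Real.sqrt_lt_sqrt (Nat.cast_nonneg _) hslope
  set lam' := (sd + lam) / 2 with hlam'
  have hl1 : sd < lam' := by rw [hlam']; linarith
  have hl2 : lam' < lam := by rw [hlam']; linarith
  -- a neighbourhood of `t` on which the slope stays above `lam'`
  obtain ⟨r₁, hr₁, hball⟩ : ∃ r₁ > 0, ∀ s, |s - t| < r₁ → lam' < |Dp g s| := by
    have hcont : ContinuousAt (fun s => |Dp g s|) t :=
      (continuous_abs.comp (continuous_Dp g)).continuousAt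
    have hev := hcont.eventually (lt_mem_nhds (show lam' < |Dp g t| from hl2))
    obtain ⟨ε, hε, hεb⟩ := Metric.eventually_nhds_iff.mp hev
    exact ⟨ε, hε, fun s hs => hεb (by rwa [Real.dist_eq])⟩
  have ht1 : 0 < 1 - |t| := by linarith
  set r := min (r₁ / 2) ((1 - |t|) / 2) with hr
  have hrpos : 0 < r := lt_min (by linarith) (by linarith)
  have hr_le1 : r ≤ r₁ / 2 := min_le_left _ _
  have hr_le2 : r ≤ (1 - |t|) / 2 := min_le_right _ _
  set w₀ := (1 - |t|) / 2 with hw₀
  have hw₀pos : 0 < w₀ := by rw [hw₀]; linarith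
  -- facts about points within `r` of `t`
  have near_abs : ∀ s, |s - t| ≤ r → |s| ≤ 1 := by
    intro s hs
    have : |s| ≤ |s - t| + |t| := by
      have := abs_add_le (s - t) t
      simpa using this
    linarith
  have near_w : ∀ s, |s - t| ≤ r → w₀ ≤ 1 - |s| := by
    intro s hs
    have : |s| ≤ |s - t| + |t| := by
      have := abs_add_le (s - t) t
      simpa using this
    rw [hw₀]
    linarith
  have near_D : ∀ s, |s - t| ≤ r → lam' < |Dp g s| := fun s hs => hball s (by linarith)
  -- Lipschitz constant `L ≥ 1`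
  set L := max (Lip g) 1 with hL
  have hL1 : 1 ≤ L := le_max_right _ _
  have hLip : ∀ s, |s| ≤ 1 → |Gp g s - t| ≤ L * |s - t| := by
    intro s hs
    have h1 := Gp_lipschitz g hs ht.le
    rw [hfix] at h1
    exact h1.trans (mul_le_mul_of_nonneg_right (le_max_left _ _) (abs_nonneg _))
  -- sizes of the inner functions
  obtain ⟨a, ha⟩ := pow_unbounded_of_one_lt L (show (1 : ℝ) < 2 by norm_num)
  obtain ⟨b, hb⟩ := pow_unbounded_of_one_lt (1 / r) (show (1 : ℝ) < 2 by norm_num)
  -- choose `k`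
  set ρ := lam' / sd with hρ
  have hsdpos : 0 < sd := by linarith
  have hρ1 : 1 < ρ := by rw [hρ, lt_div_iff₀ hsdpos]; linarith
  obtain ⟨k, hk1, hk⟩ := exists_pow_gt_sqrt hρ1 (C / w₀) (a : ℝ) ((b : ℝ) + 1)
    (Nat.cast_nonneg _) (by positivity)
  -- the inner threshold function on `a * k + b + 1` variables
  obtain ⟨N, hN, hNear⟩ := exists_thr_near t ht (a * k + b)
  set h := thr (a * k + b + 1) N with hh
  have hδ : |mean h - t| ≤ r / L ^ k := by
    refine hNear.trans ?_
    rw [pow_add, pow_mul]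
    have h1 : L ^ k ≤ (2 ^ a) ^ k := pow_le_pow_left₀ (by linarith) ha.le k
    have h2 : 1 / r ≤ 2 ^ b := hb.le
    have hLk : 0 < L ^ k := by positivity
    rw [div_le_div_iff₀ (by positivity) hLk]
    have h3 : 1 ≤ r * 2 ^ b := by
      rw [div_le_iff₀ hrpos] at h2
      linarith
    calc 1 * L ^ k ≤ (r * 2 ^ b) * (2 ^ a) ^ k := by
          rw [one_mul]
          calc L ^ k ≤ (2 ^ a) ^ k := h1
            _ = 1 * (2 ^ a) ^ k := (one_mul _).symm
            _ ≤ (r * 2 ^ b) * (2 ^ a) ^ k := mul_le_mul_of_nonneg_right h3 (by positivity)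
      _ = r * ((2 ^ a) ^ k * 2 ^ b) := by ring
  -- the orbit stays within `r` of `t` for `k` steps
  have horbit : ∀ i, i ≤ k → |(Gp g)^[i] (mean h) - t| ≤ L ^ i * (r / L ^ k) := by
    intro i
    induction i with
    | zero => intro _; simpa using hδ
    | succ i ih =>
      intro hi
      have hi' := ih (by omega)
      have hle : L ^ i * (r / L ^ k) ≤ r := by
        have hLk : 0 < L ^ k := by positivity
        rw [← mul_div_assoc, div_le_iff₀ hLk, mul_comm]
        exact mul_le_mul_of_nonneg_left (pow_le_pow_right₀ hL1 (by omega)) hrpos.le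
      rw [Function.iterate_succ_apply']
      calc |Gp g ((Gp g)^[i] (mean h)) - t| ≤ L * |(Gp g)^[i] (mean h) - t| :=
            hLip _ (near_abs _ (hi'.trans hle))
        _ ≤ L * (L ^ i * (r / L ^ k)) := mul_le_mul_of_nonneg_left hi' (by linarith)
        _ = L ^ (i + 1) * (r / L ^ k) := by ring
  have horbit' : ∀ i, i ≤ k → |(Gp g)^[i] (mean h) - t| ≤ r := by
    intro i hi
    refine (horbit i hi).trans ?_
    have hLk : 0 < L ^ k := by positivity
    rw [← mul_div_assoc, div_le_iff₀ hLk, mul_comm]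
    exact mul_le_mul_of_nonneg_left (pow_le_pow_right₀ hL1 hi) hrpos.le
  -- iterate
  obtain ⟨n, f, hfd, -, hfW⟩ := exists_iter_biased g d hdeg k h (a * k + b + 1) (degLE_thr _ _)
  refine conclusion_of f (d ^ k * (a * k + b + 1)) hfd C hC ?_
  -- lower bound on `|Wsum f|`
  have hprod : lam' ^ k ≤ |∏ i ∈ Finset.range k, Dp g ((Gp g)^[i] (mean h))| := by
    rw [Finset.abs_prod]
    calc lam' ^ k = ∏ _i ∈ Finset.range k, lam' := by rw [Finset.prod_const, Finset.card_range]
      _ ≤ ∏ i ∈ Finset.range k, |Dp g ((Gp g)^[i] (mean h))| := by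
          refine Finset.prod_le_prod (fun i _ => by linarith) (fun i hi => ?_)
          exact (near_D _ (horbit' i (Finset.mem_range.mp hi).le)).le
  have hWh : w₀ ≤ |Wsum h| := by
    have h1 := abs_Wsum_thr (a * k + b + 1) N hN
    have h2 := near_w (mean h) (by simpa using horbit' 0 (Nat.zero_le _))
    linarith
  have hlam'pos : 0 < lam' := by linarith
  have hWf : lam' ^ k * w₀ ≤ |Wsum f| := by
    rw [hfW, abs_mul]
    exact mul_le_mul hprod hWh hw₀pos.le (abs_nonneg _)
  refine lt_of_lt_of_le ?_ hWf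
  -- the square root of the degree bound
  have hsq : Real.sqrt ((d ^ k * (a * k + b + 1) : ℕ) : ℝ) =
      sd ^ k * Real.sqrt ((a : ℝ) * k + ((b : ℝ) + 1)) := by
    push_cast
    rw [Real.sqrt_mul (by positivity)]
    congr 1
    · rw [Real.sqrt_eq_iff_mul_self_eq (by positivity) (by positivity), ← mul_pow, hsd,
        Real.mul_self_sqrt (Nat.cast_nonneg _)]
    · congr 1
      ring
  rw [hsq]
  have hsdk : 0 < sd ^ k := by positivity
  have hk' : C / w₀ * Real.sqrt ((a : ℝ) * k + ((b : ℝ) + 1)) < lam' ^ k / sd ^ k := by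
    rw [← div_pow]
    exact hk
  rw [lt_div_iff₀ hsdk, div_mul_eq_mul_div, div_mul_eq_mul_div, div_lt_iff₀ hw₀pos] at hk'
  linarith

end Iterate

end

end Crest.Agent.Helper2.BoolBiased
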