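import Crest.Agent.Helper2.BoolBiased

/-!
# Truth-table front end for the biased fixed-point gadget criterion

`exists_of_biased_table n d T y z`: the Boolean function `ofT n T` (truth table `T`, see
`BoolTable.ofT`) has degree `≤ d`, and its bias polynomial `Gp` has a fixed point in the interval
`[y / z, (y + 1) / z] ⊆ (-1, 1)` at which the squared slope exceeds `d`.  All hypotheses are
decidable statements about integers computed from the packed Walsh transform `pk`, to be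
discharged by `by decide +kernel`.
-/

set_option autoImplicit false

namespace Crest.Agent.Helper2.BoolBiasedTable

open Finset
open Crest.Agent.Helper2.BoolCompose Crest.Agent.Helper2.BoolTable Crest.Agent.Helper2.BoolBiased

/-! ### Sums over subsets of `Fin (n+1)` -/

/-- The two kinds of subsets of `Fin (n+1)`. -/
def succSplit (n : ℕ) : Finset (Fin n) ⊕ Finset (Fin n) → Finset (Fin (n + 1))
  | Sum.inl S => S.map (Fin.succEmb n)
  | Sum.inr S => insert 0 (S.map (Fin.succEmb n))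

lemma succSplit_bijective (n : ℕ) : Function.Bijective (succSplit n) := by
  constructor
  · rintro (A | A) (B | B) h
    · simp only [succSplit] at h
      rw [Finset.map_injective _ h]
    · exfalso
      simp only [succSplit] at h
      have h0 : (0 : Fin (n + 1)) ∈ A.map (Fin.succEmb n) := by
        rw [h]
        exact Finset.mem_insert_self _ _
      exact zero_notMem_map_succ A h0
    · exfalso
      simp only [succSplit] at h
      have h0 : (0 : Fin (n + 1)) ∈ B.map (Fin.succEmb n) := by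
        rw [← h]
        exact Finset.mem_insert_self _ _
      exact zero_notMem_map_succ B h0
    · simp only [succSplit] at h
      have h' : A.map (Fin.succEmb n) = B.map (Fin.succEmb n) := by
        have h1 := congrArg (fun s => s.erase 0) h
        simp only [Finset.erase_insert (zero_notMem_map_succ _)] at h1
        exact h1
      rw [Finset.map_injective _ h']
  · intro S
    obtain ⟨S', h | h⟩ := finset_succ_cases S
    · exact ⟨Sum.inl S', h.symm⟩
    · exact ⟨Sum.inr S', h.symm⟩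

lemma sum_finset_succ {M : Type*} [AddCommMonoid M] {n : ℕ} (φ : Finset (Fin (n + 1)) → M) :
    ∑ S, φ S = ∑ S' : Finset (Fin n), φ (S'.map (Fin.succEmb n)) +
      ∑ S' : Finset (Fin n), φ (insert 0 (S'.map (Fin.succEmb n))) := by
  rw [← (Equiv.ofBijective _ (succSplit_bijective n)).sum_comp, Fintype.sum_sum_type]
  rfl

/-! ### Weighted sums of the fields of a packed number -/

/-- `∑ S, field S * w (j + |S|)`, computed from the packed number. -/
def wsum (B : ℕ) (w : ℕ → ℤ) : ℕ → ℕ → ℕ → ℤ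
  | 0, j, v => (v : ℤ) * w j
  | n + 1, j, v => wsum B w n j (v % B ^ (2 ^ n)) + wsum B w n (j + 1) (v / B ^ (2 ^ n))

lemma wsum_pack (B : ℕ) (w : ℕ → ℤ) : ∀ (n j : ℕ) (c : Finset (Fin n) → ℕ), (∀ S, c S < B) →
    wsum B w n j (pack B n c) = ∑ S : Finset (Fin n), (c S : ℤ) * w (j + S.card)
  | 0, j, c, _ => by
    rw [Fintype.sum_eq_single (∅ : Finset (Fin 0))
      (fun S hS => absurd (Finset.eq_empty_of_isEmpty S) hS)]
    simp [wsum, pack]
  | n + 1, j, c, h => by
    rw [wsum, pack_succ_mod B n c h, pack_succ_div B n c h, wsum_pack B w n j _ (fun S => h _),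
      wsum_pack B w n (j + 1) _ (fun S => h _), sum_finset_succ]
    congr 1
    · refine Finset.sum_congr rfl fun S _ => ?_
      rw [Finset.card_map]
    · refine Finset.sum_congr rfl fun S _ => ?_
      rw [Finset.card_insert_of_notMem (zero_notMem_map_succ S), Finset.card_map]
      congr 2
      omega

/-- `∑ S, coeffZ (ofT n T) S * w |S|`, computed from the truth table. -/
def cz (n T : ℕ) (w : ℕ → ℤ) : ℤ :=
  wsum (2 ^ (n + 2)) w n 0 (pk (2 ^ (n + 2)) n T) -
    2 ^ n * wsum (2 ^ (n + 2)) w n 0 (rep (2 ^ (n + 2)) n)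

lemma cz_eq (n T : ℕ) (w : ℕ → ℤ) :
    cz n T w = ∑ S : Finset (Fin n), coeffZ (ofT n T) S * w S.card := by
  unfold cz
  have h1 : (1 : ℕ) < 2 ^ (n + 2) := Nat.one_lt_two_pow (by omega)
  have hrep : rep (2 ^ (n + 2)) n = pack (2 ^ (n + 2)) n (fun _ => 1) := by
    rw [pack_const, one_mul]
  rw [pk_eq_pack _ (by positivity), wsum_pack _ _ _ _ _ (uN_lt_base n _), hrep,
    wsum_pack _ _ _ _ _ (fun _ => h1), Finset.mul_sum, ← Finset.sum_sub_distrib]
  refine Finset.sum_congr rfl fun S _ => ?_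
  rw [uN_cast]
  simp only [Nat.zero_add, Nat.cast_one, one_mul]
  ring

/-- Weights evaluating the homogenised bias polynomial at `y / z`. -/
def wE (n : ℕ) (y : ℤ) (z : ℕ) : ℕ → ℤ := fun k => y ^ k * (z : ℤ) ^ (n - k)

/-- Weights evaluating the homogenised derivative of the bias polynomial at `y / z`. -/
def wD (n : ℕ) (y : ℤ) (z : ℕ) : ℕ → ℤ := fun k => (k : ℤ) * y ^ (k - 1) * (z : ℤ) ^ (n - k)

/-! ### Bias polynomial of a table at a rational point -/

section Real

variable (n T : ℕ)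

lemma nc_ofT (S : Finset (Fin n)) : nc (ofT n T) S = (coeffZ (ofT n T) S : ℝ) / 2 ^ n := by
  unfold nc
  rw [coeff_eq_cast, Fintype.card_fin]

lemma card_le (S : Finset (Fin n)) : S.card ≤ n := by
  have := Finset.card_le_univ S
  simpa using this

lemma Gp_ofT (y : ℤ) (z : ℕ) (hz : 0 < z) :
    Gp (ofT n T) ((y : ℝ) / z) = (cz n T (wE n y z) : ℝ) / (2 ^ n * (z : ℝ) ^ n) := by
  have hz' : (z : ℝ) ≠ 0 := by exact_mod_cast hz.ne'
  rw [cz_eq]
  unfold Gp wE
  push_cast
  rw [Finset.sum_div]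
  refine Finset.sum_congr rfl fun S _ => ?_
  rw [nc_ofT]
  have hk := card_le n S
  have hsplit : (z : ℝ) ^ n = (z : ℝ) ^ S.card * (z : ℝ) ^ (n - S.card) := by
    rw [← pow_add, Nat.add_sub_cancel' hk]
  rw [hsplit, div_pow]
  field_simp

lemma Dp_ofT (y : ℤ) (z : ℕ) (hz : 0 < z) :
    Dp (ofT n T) ((y : ℝ) / z) = (cz n T (wD n y z) : ℝ) / (2 ^ n * (z : ℝ) ^ (n - 1)) := by
  have hz' : (z : ℝ) ≠ 0 := by exact_mod_cast hz.ne'
  rw [cz_eq]
  unfold Dp wD
  push_cast
  rw [Finset.sum_div]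
  refine Finset.sum_congr rfl fun S _ => ?_
  rw [nc_ofT]
  have hk := card_le n S
  by_cases h0 : S.card = 0
  · rw [h0]
    simp
  · have hsplit : (z : ℝ) ^ (n - 1) = (z : ℝ) ^ (S.card - 1) * (z : ℝ) ^ (n - S.card) := by
      rw [← pow_add]
      congr 1
      omega
    rw [hsplit, div_pow]
    field_simp

lemma continuous_Gp (g : (Fin n → Bool) → Bool) : Continuous (Gp g) := by
  unfold Gp
  fun_prop

lemma abs_nc_le (g : (Fin n → Bool) → Bool) (S : Finset (Fin n)) : |nc g S| ≤ 1 := by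
  unfold nc
  rw [coeff_eq_cast, Fintype.card_fin, abs_div, abs_of_pos (by positivity : (0 : ℝ) < 2 ^ n),
    div_le_one (by positivity)]
  have := abs_coeffZ_le g S
  exact_mod_cast this

/-- The derivative of the bias polynomial is Lipschitz on `[-1, 1]`. -/
lemma Dp_lipschitz (g : (Fin n → Bool) → Bool) {s t : ℝ} (hs : |s| ≤ 1) (ht : |t| ≤ 1) :
    |Dp g s - Dp g t| ≤ (n : ℝ) ^ 2 * 2 ^ n * |s - t| := by
  unfold Dp
  rw [← Finset.sum_sub_distrib]
  refine (Finset.abs_sum_le_sum_abs _ _).trans ?_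
  have hterm : ∀ S : Finset (Fin n),
      |nc g S * (S.card * s ^ (S.card - 1)) - nc g S * (S.card * t ^ (S.card - 1))|
        ≤ (n : ℝ) ^ 2 * |s - t| := by
    intro S
    have hk : (S.card : ℝ) ≤ n := by exact_mod_cast card_le n S
    have hk1 : ((S.card - 1 : ℕ) : ℝ) ≤ n := by
      have : S.card - 1 ≤ n := (Nat.sub_le _ _).trans (card_le n S)
      exact_mod_cast this
    have h1 : nc g S * (S.card * s ^ (S.card - 1)) - nc g S * (S.card * t ^ (S.card - 1))
        = nc g S * (S.card * (s ^ (S.card - 1) - t ^ (S.card - 1))) := by ring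
    rw [h1, abs_mul, abs_mul, abs_of_nonneg (Nat.cast_nonneg S.card : (0 : ℝ) ≤ (S.card : ℝ))]
    have h2 := abs_pow_sub_pow_le hs ht (S.card - 1)
    have h3 : (S.card : ℝ) * |s ^ (S.card - 1) - t ^ (S.card - 1)| ≤ (n : ℝ) ^ 2 * |s - t| := by
      calc (S.card : ℝ) * |s ^ (S.card - 1) - t ^ (S.card - 1)|
          ≤ (n : ℝ) * (((S.card - 1 : ℕ) : ℝ) * |s - t|) :=
            mul_le_mul hk h2 (abs_nonneg _) (Nat.cast_nonneg _)
        _ ≤ (n : ℝ) * ((n : ℝ) * |s - t|) :=
            mul_le_mul_of_nonneg_left (mul_le_mul_of_nonneg_right hk1 (abs_nonneg _))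
              (Nat.cast_nonneg _)
        _ = (n : ℝ) ^ 2 * |s - t| := by ring
    calc |nc g S| * ((S.card : ℝ) * |s ^ (S.card - 1) - t ^ (S.card - 1)|)
        ≤ 1 * ((n : ℝ) ^ 2 * |s - t|) :=
          mul_le_mul (abs_nc_le n g S) h3 (by positivity) (by norm_num)
      _ = (n : ℝ) ^ 2 * |s - t| := one_mul _
  calc ∑ S : Finset (Fin n),
        |nc g S * (S.card * s ^ (S.card - 1)) - nc g S * (S.card * t ^ (S.card - 1))|
      ≤ ∑ _S : Finset (Fin n), (n : ℝ) ^ 2 * |s - t| := Finset.sum_le_sum fun S _ => hterm S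
    _ = (n : ℝ) ^ 2 * 2 ^ n * |s - t| := by
        rw [Finset.sum_const, Finset.card_univ, Fintype.card_finset, Fintype.card_fin]
        simp
        ring

end Real

/-! ### The criterion -/

/-- **Biased truth-table gadget criterion for S0085.**  `T` is the truth table of a Boolean
function on `n ≥ 2` variables with all coefficients above level `d` vanishing; the interval
`[y / z, (y + 1) / z] ⊆ (-1, 1)` contains a fixed point of its bias polynomial (sign change of
`Gp s - s`), and on it the squared slope exceeds `d`. -/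
theorem exists_of_biased_table (n d T : ℕ) (y : ℤ) (z : ℕ) (hn : 2 ≤ n)
    (hdeg : chk (2 ^ (n + 2)) (2 ^ n) n d (pk (2 ^ (n + 2)) n T) = true)
    (hz : 0 < z) (hy1 : -(z : ℤ) < y) (hy2 : y + 1 < z)
    (hIVT : (cz n T (wE n y z) - 2 ^ n * (z : ℤ) ^ (n - 1) * y) *
      (cz n T (wE n (y + 1) z) - 2 ^ n * (z : ℤ) ^ (n - 1) * (y + 1)) ≤ 0)
    (hsl1 : n ^ 2 * 4 ^ n * z ^ (n - 2) < (cz n T (wD n y z)).natAbs)
    (hsl2 : d * (2 ^ n * z ^ (n - 1)) ^ 2 <
      ((cz n T (wD n y z)).natAbs - n ^ 2 * 4 ^ n * z ^ (n - 2)) ^ 2)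
    (C : ℝ) (hC : 0 < C) :
    ∃ m : ℕ, ∃ f : (Fin m → Bool) → Bool, ∃ e : ℕ,
      (∃ x y, f x ≠ f y) ∧
      (∀ S : Finset (Fin m), e < S.card →
        ∑ x : Fin m → Bool, ((if f x then (1 : ℝ) else -1) *
          ∏ i ∈ S, (if x i then (1 : ℝ) else -1)) = 0) ∧
      C * Real.sqrt e <
        ∑ i : Fin m, (∑ x : Fin m → Bool, ((if f x then (1 : ℝ) else -1) *
          (if x i then (1 : ℝ) else -1))) / 2 ^ m := by
  set g := ofT n T with hg
  have hzR : (0 : ℝ) < z := by exact_mod_cast hz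
  set t₀ : ℝ := (y : ℝ) / z with ht₀
  set t₁ : ℝ := ((y + 1 : ℤ) : ℝ) / z with ht₁
  have ht01 : t₀ ≤ t₁ := by
    rw [ht₀, ht₁, div_le_div_iff_of_pos_right hzR]
    push_cast
    linarith
  have ht₀lb : -1 < t₀ := by
    rw [ht₀, lt_div_iff₀ hzR]
    have : (-(z : ℤ) : ℝ) < (y : ℝ) := by exact_mod_cast hy1
    push_cast at this
    linarith
  have ht₁ub : t₁ < 1 := by
    rw [ht₁, div_lt_one hzR]
    exact_mod_cast hy2
  have ht10 : t₁ - t₀ = 1 / z := by
    rw [ht₀, ht₁]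
    push_cast
    field_simp
    ring
  -- the denominators
  have hQ0 : (0 : ℝ) < 2 ^ n * (z : ℝ) ^ n := by positivity
  have hzn : (z : ℝ) ^ n = (z : ℝ) ^ (n - 1) * z := by
    rw [← pow_succ]
    congr 1
    omega
  -- values of `Gp s - s` at the end points
  have hf₀ : Gp g t₀ - t₀ =
      ((cz n T (wE n y z) - 2 ^ n * (z : ℤ) ^ (n - 1) * y : ℤ) : ℝ) / (2 ^ n * (z : ℝ) ^ n) := by
    rw [hg, ht₀, Gp_ofT n T y z hz]
    push_cast
    rw [hzn]
    field_simp
  have hf₁ : Gp g t₁ - t₁ =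
      ((cz n T (wE n (y + 1) z) - 2 ^ n * (z : ℤ) ^ (n - 1) * (y + 1) : ℤ) : ℝ) /
        (2 ^ n * (z : ℝ) ^ n) := by
    rw [hg, ht₁, Gp_ofT n T (y + 1) z hz]
    push_cast
    rw [hzn]
    field_simp
  have hprod : (Gp g t₀ - t₀) * (Gp g t₁ - t₁) ≤ 0 := by
    rw [hf₀, hf₁, div_mul_div_comm]
    refine div_nonpos_of_nonpos_of_nonneg ?_ (by positivity)
    have : (((cz n T (wE n y z) - 2 ^ n * (z : ℤ) ^ (n - 1) * y) *
      (cz n T (wE n (y + 1) z) - 2 ^ n * (z : ℤ) ^ (n - 1) * (y + 1)) : ℤ) : ℝ) ≤ ((0 : ℤ) : ℝ) :=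
      Int.cast_le.mpr hIVT
    push_cast at this ⊢
    exact this
  -- the fixed point
  have hcont : ContinuousOn (fun s => Gp g s - s) (Set.Icc t₀ t₁) :=
    ((continuous_Gp n g).sub continuous_id).continuousOn
  obtain ⟨t, ⟨htl, htu⟩, hfix⟩ : ∃ t ∈ Set.Icc t₀ t₁, Gp g t - t = 0 := by
    rcases mul_nonpos_iff.mp hprod with ⟨h0, h1⟩ | ⟨h0, h1⟩
    · have := intermediate_value_Icc' ht01 hcont
      exact this ⟨h1, h0⟩
    · have := intermediate_value_Icc ht01 hcont
      exact this ⟨h0, h1⟩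
  have htabs : |t| < 1 := abs_lt.mpr ⟨by linarith, by linarith⟩
  have ht₀abs : |t₀| ≤ 1 := abs_le.mpr ⟨by linarith, by linarith⟩
  -- the slope at the fixed point
  have hlip := Dp_lipschitz n g htabs.le ht₀abs
  have hdist : |t - t₀| ≤ 1 / z := by
    rw [abs_of_nonneg (by linarith)]
    linarith
  have hD₀ : |Dp g t₀| = ((cz n T (wD n y z)).natAbs : ℝ) / (2 ^ n * (z : ℝ) ^ (n - 1)) := by
    rw [hg, ht₀, Dp_ofT n T y z hz, abs_div, abs_of_pos (by positivity : (0:ℝ) < 2 ^ n * (z:ℝ) ^ (n - 1))]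
    congr 1
    rw [Nat.cast_natAbs]
    push_cast
    rfl
  set A : ℕ := (cz n T (wD n y z)).natAbs with hA
  set M : ℕ := n ^ 2 * 4 ^ n * z ^ (n - 2) with hM
  set Q : ℝ := 2 ^ n * (z : ℝ) ^ (n - 1) with hQ
  have hQpos : 0 < Q := by positivity
  have hzn1 : (z : ℝ) ^ (n - 1) = (z : ℝ) ^ (n - 2) * z := by
    rw [← pow_succ]
    congr 1
    omega
  have hMQ : (n : ℝ) ^ 2 * 2 ^ n * (1 / z) = (M : ℝ) / Q := by
    rw [hM, hQ, hzn1]
    push_cast
    have h4 : (4 : ℝ) ^ n = 2 ^ n * 2 ^ n := by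
      rw [← mul_pow]
      norm_num
    rw [h4]
    field_simp
  have hlow : ((A : ℝ) - M) / Q ≤ |Dp g t| := by
    have h1 : |Dp g t₀| - |Dp g t| ≤ |Dp g t - Dp g t₀| := by
      have := abs_sub_abs_le_abs_sub (Dp g t₀) (Dp g t)
      rwa [abs_sub_comm (Dp g t₀) (Dp g t)] at this
    have h2 : |Dp g t - Dp g t₀| ≤ (M : ℝ) / Q := by
      rw [← hMQ]
      exact hlip.trans (mul_le_mul_of_nonneg_left hdist (by positivity))
    rw [hD₀] at h1
    rw [sub_div]
    linarith
  have hAM : (M : ℝ) < A := by exact_mod_cast hsl1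
  have hpos : 0 < ((A : ℝ) - M) / Q := div_pos (by linarith) hQpos
  have hsl2' : (d : ℝ) * Q ^ 2 < ((A : ℝ) - M) ^ 2 := by
    have h1 : ((d * (2 ^ n * z ^ (n - 1)) ^ 2 : ℕ) : ℝ) < (((A - M) ^ 2 : ℕ) : ℝ) := by
      exact_mod_cast hsl2
    rw [Nat.cast_pow, Nat.cast_sub hsl1.le] at h1
    push_cast at h1
    rw [hQ]
    exact h1
  have hslope : (d : ℝ) < (Dp g t) ^ 2 := by
    have h1 : (d : ℝ) < (((A : ℝ) - M) / Q) ^ 2 := by
      rw [div_pow, lt_div_iff₀ (by positivity)]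
      exact hsl2'
    have h2 : (((A : ℝ) - M) / Q) ^ 2 ≤ |Dp g t| ^ 2 := pow_le_pow_left₀ hpos.le hlow 2
    rw [sq_abs] at h2
    linarith
  have hdegLE : DegLE g d := degLE_of_chk n d T hdeg
  exact exists_of_biased_gadget g d hdegLE t htabs (by linarith) hslope C hC

end Crest.Agent.Helper2.BoolBiasedTable
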