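import Mathlib

/-!
# Composition of Boolean functions: degree and level-one Fourier sum (toolkit for S0085)

For `f : (ι → Bool) → Bool` we use the sign convention `sg true = 1`, `sg false = -1` and the
unnormalised Fourier–Walsh coefficients `coeff f S = ∑ x, sg (f x) * ∏ i ∈ S, sg (x i)`.

Main results:
* `coeff_comp`  : the coefficients of the block composition `comp g h`;
* `degLE_comp`, `Wsum_comp`, `balanced_comp` : degree bounds multiply, level-one sums multiply
  (inner function balanced);
* `exists_iter` : the `k`-fold self-composition of a balanced gadget, reindexed to `Fin n`;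
* `exists_of_gadget` : a balanced gadget `g` of degree `≤ d₀` with `√d₀ < Wsum g` yields, for every
  `C > 0`, the conclusion of statement S0085 in its literal form.
-/

set_option autoImplicit false

namespace Crest.Agent.Helper2.BoolCompose

open Finset

noncomputable section

/-- The sign of a Boolean: `true ↦ 1`, `false ↦ -1`. -/
def sg (b : Bool) : ℝ := if b then 1 else -1

@[simp] lemma sg_true : sg true = 1 := by simp [sg]
@[simp] lemma sg_false : sg false = -1 := by simp [sg]
lemma sg_mul_self (b : Bool) : sg b * sg b = 1 := by cases b <;> simp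
lemma sum_bool_sg : ∑ b : Bool, sg b = 0 := by simp

section Basic

variable {ι : Type*} [Fintype ι] [DecidableEq ι]

/-- The Walsh character of `S`. -/
def chi (S : Finset ι) (x : ι → Bool) : ℝ := ∏ i ∈ S, sg (x i)

/-- Unnormalised Fourier–Walsh coefficient. -/
def coeff (f : (ι → Bool) → Bool) (S : Finset ι) : ℝ := ∑ x : ι → Bool, sg (f x) * chi S x

/-- All coefficients on more than `d` coordinates vanish. -/
def DegLE (f : (ι → Bool) → Bool) (d : ℕ) : Prop :=
  ∀ S : Finset ι, d < S.card → coeff f S = 0

/-- The sum of the (normalised) singleton coefficients. -/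
def Wsum (f : (ι → Bool) → Bool) : ℝ := ∑ i, coeff f {i} / 2 ^ Fintype.card ι

lemma chi_eq_prod_univ (S : Finset ι) (x : ι → Bool) :
    chi S x = ∏ i, if i ∈ S then sg (x i) else 1 := by
  rw [chi, Fintype.prod_ite_mem]

/-- Sum over the cube of a product of coordinate functions. -/
lemma sum_prod_coord (φ : ι → Bool → ℝ) :
    ∑ x : ι → Bool, ∏ i, φ i (x i) = ∏ i, ∑ b, φ i b :=
  (Fintype.prod_sum φ).symm

lemma sum_chi (S : Finset ι) :
    ∑ x : ι → Bool, chi S x = if S = ∅ then 2 ^ Fintype.card ι else 0 := by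
  have h1 : ∑ x : ι → Bool, chi S x = ∏ i, ∑ b : Bool, (if i ∈ S then sg b else 1) := by
    rw [← sum_prod_coord]
    refine Finset.sum_congr rfl fun x _ => ?_
    rw [chi_eq_prod_univ]
  rw [h1]
  split_ifs with hS
  · subst hS
    simp
  · obtain ⟨i, hi⟩ := Finset.nonempty_iff_ne_empty.mpr hS
    refine Finset.prod_eq_zero (Finset.mem_univ i) ?_
    simp [hi]

omit [DecidableEq ι] in
lemma sum_chi_mul_chi (z y : ι → Bool) :
    ∑ T : Finset ι, chi T z * chi T y = if z = y then 2 ^ Fintype.card ι else 0 := by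
  have h1 : ∑ T : Finset ι, chi T z * chi T y = ∏ i, (1 + sg (z i) * sg (y i)) := by
    rw [Finset.prod_one_add, Finset.powerset_univ]
    refine Finset.sum_congr rfl fun T _ => ?_
    rw [chi, chi, Finset.prod_mul_distrib]
  rw [h1]
  split_ifs with hzy
  · subst hzy
    have : ∀ i, (1 + sg (z i) * sg (z i)) = (2 : ℝ) := fun i => by rw [sg_mul_self]; norm_num
    simp [this]
  · obtain ⟨i, hi⟩ := Function.ne_iff.mp hzy
    refine Finset.prod_eq_zero (Finset.mem_univ i) ?_
    cases hz : z i <;> cases hy : y i <;> simp_all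

/-- Fourier inversion. -/
lemma inversion (g : (ι → Bool) → Bool) (y : ι → Bool) :
    sg (g y) = (∑ T : Finset ι, coeff g T * chi T y) / 2 ^ Fintype.card ι := by
  have h1 : ∑ T : Finset ι, coeff g T * chi T y
      = ∑ z : ι → Bool, sg (g z) * ∑ T : Finset ι, chi T z * chi T y := by
    simp only [coeff, Finset.sum_mul, Finset.mul_sum]
    rw [Finset.sum_comm]
    refine Finset.sum_congr rfl fun z _ => Finset.sum_congr rfl fun T _ => ?_
    ring
  rw [h1]
  simp only [sum_chi_mul_chi, mul_ite, mul_zero]
  rw [Finset.sum_ite_eq' Finset.univ y]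
  simp

end Basic

section Comp

variable {α β : Type*} [Fintype α] [DecidableEq α] [Fintype β] [DecidableEq β]

/-- Block composition: `g` applied to `h` evaluated on the blocks `{a} × β`. -/
def comp (g : (α → Bool) → Bool) (h : (β → Bool) → Bool) : (α × β → Bool) → Bool :=
  fun x => g (fun a => h (fun b => x (a, b)))

/-- The fibre of `S ⊆ α × β` over `a`. -/
def fib (S : Finset (α × β)) (a : α) : Finset β := Finset.univ.filter (fun b => (a, b) ∈ S)

omit [Fintype α] in
lemma mem_fib (S : Finset (α × β)) (a : α) (b : β) : b ∈ fib S a ↔ (a, b) ∈ S := by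
  simp [fib]

lemma chi_prod (S : Finset (α × β)) (x : α × β → Bool) :
    chi S x = ∏ a, chi (fib S a) (fun b => x (a, b)) := by
  rw [chi, ← Fintype.prod_ite_mem S, Fintype.prod_prod_type]
  refine Finset.prod_congr rfl fun a _ => ?_
  rw [chi, fib, Finset.prod_filter]

lemma card_eq_sum_fib (S : Finset (α × β)) : S.card = ∑ a, (fib S a).card := by
  have h1 : S.card = ∑ p : α × β, if p ∈ S then 1 else 0 := by
    rw [Fintype.sum_ite_mem]; simp
  rw [h1, Fintype.sum_prod_type]
  refine Finset.sum_congr rfl fun a _ => ?_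
  rw [fib, Finset.card_filter]

/-- The coefficients of a block composition. -/
lemma coeff_comp (g : (α → Bool) → Bool) (h : (β → Bool) → Bool) (S : Finset (α × β)) :
    coeff (comp g h) S =
      (∑ T : Finset α, coeff g T *
        ∏ a, (if a ∈ T then coeff h (fib S a)
              else if fib S a = ∅ then 2 ^ Fintype.card β else 0)) / 2 ^ Fintype.card α := by
  -- the inner sums
  have inner : ∀ (T : Finset α) (a : α),
      ∑ u : β → Bool, (if a ∈ T then sg (h u) else 1) * chi (fib S a) u
        = (if a ∈ T then coeff h (fib S a)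
            else if fib S a = ∅ then 2 ^ Fintype.card β else 0) := by
    intro T a
    by_cases ha : a ∈ T
    · simp only [ha, if_true]; rfl
    · simp only [ha, if_false, one_mul]
      exact sum_chi _
  have step : ∀ T : Finset α,
      ∑ x : α × β → Bool, chi T (fun a => h (fun b => x (a, b))) * chi S x
        = ∏ a, (if a ∈ T then coeff h (fib S a)
            else if fib S a = ∅ then 2 ^ Fintype.card β else 0) := by
    intro T
    have e1 : ∑ x : α × β → Bool, chi T (fun a => h (fun b => x (a, b))) * chi S x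
        = ∑ x' : α → β → Bool,
            ∏ a, ((if a ∈ T then sg (h (x' a)) else 1) * chi (fib S a) (x' a)) := by
      refine Fintype.sum_equiv (Equiv.curry α β Bool) _ _ fun x => ?_
      rw [chi_prod S x, chi_eq_prod_univ T, ← Finset.prod_mul_distrib]
      rfl
    rw [e1]
    exact ((Fintype.prod_sum (fun a (u : β → Bool) =>
      (if a ∈ T then sg (h u) else 1) * chi (fib S a) u)).symm).trans
      (Finset.prod_congr rfl fun a _ => inner T a)
  have e2 : coeff (comp g h) S
      = ∑ x : α × β → Bool,
          (∑ T : Finset α, coeff g T * chi T (fun a => h (fun b => x (a, b)))) /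
            2 ^ Fintype.card α * chi S x := by
    refine Finset.sum_congr rfl fun x _ => ?_
    rw [← inversion g]
    rfl
  rw [e2]
  have e3 : ∀ x : α × β → Bool,
      (∑ T : Finset α, coeff g T * chi T (fun a => h (fun b => x (a, b)))) /
            2 ^ Fintype.card α * chi S x
        = ∑ T : Finset α,
            coeff g T * (chi T (fun a => h (fun b => x (a, b))) * chi S x) /
              2 ^ Fintype.card α := by
    intro x
    rw [Finset.sum_div, Finset.sum_mul]
    refine Finset.sum_congr rfl fun T _ => ?_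
    ring
  simp only [e3]
  rw [Finset.sum_comm, Finset.sum_div]
  refine Finset.sum_congr rfl fun T _ => ?_
  rw [← Finset.sum_div, ← Finset.mul_sum, step T]

/-- Degree bounds multiply under composition with a balanced inner function. -/
theorem degLE_comp {g : (α → Bool) → Bool} {h : (β → Bool) → Bool} {dg dh : ℕ}
    (hg : DegLE g dg) (hh : DegLE h dh) (hbal : coeff h ∅ = 0) :
    DegLE (comp g h) (dg * dh) := by
  intro S hS
  rw [coeff_comp]
  refine div_eq_zero_iff.mpr (Or.inl (Finset.sum_eq_zero fun T _ => ?_))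
  by_cases h1 : ∃ a, a ∈ T ∧ fib S a = ∅
  · obtain ⟨a, haT, hfa⟩ := h1
    refine mul_eq_zero_of_right _ (Finset.prod_eq_zero (Finset.mem_univ a) ?_)
    simp [haT, hfa, hbal]
  by_cases h2 : ∃ a, a ∉ T ∧ fib S a ≠ ∅
  · obtain ⟨a, haT, hfa⟩ := h2
    refine mul_eq_zero_of_right _ (Finset.prod_eq_zero (Finset.mem_univ a) ?_)
    simp [haT, hfa]
  push Not at h1 h2
  by_cases h3 : dg < T.card
  · rw [hg T h3, zero_mul]
  push Not at h3
  have h4 : ∃ a ∈ T, dh < (fib S a).card := by
    by_contra hcon
    push Not at hcon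
    have hsum : S.card = ∑ a ∈ T, (fib S a).card := by
      rw [card_eq_sum_fib]
      symm
      refine Finset.sum_subset (Finset.subset_univ T) fun a _ haT => ?_
      rw [h2 a haT, Finset.card_empty]
    have : S.card ≤ dg * dh := by
      rw [hsum]
      calc ∑ a ∈ T, (fib S a).card ≤ ∑ _a ∈ T, dh := Finset.sum_le_sum hcon
        _ = T.card * dh := by rw [Finset.sum_const, smul_eq_mul]
        _ ≤ dg * dh := Nat.mul_le_mul_right _ h3
    omega
  obtain ⟨a, haT, hda⟩ := h4
  refine mul_eq_zero_of_right _ (Finset.prod_eq_zero (Finset.mem_univ a) ?_)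
  simp [haT, hh _ hda]

/-- Balancedness is inherited by compositions. -/
theorem balanced_comp {g : (α → Bool) → Bool} {h : (β → Bool) → Bool}
    (hg : coeff g ∅ = 0) (hh : coeff h ∅ = 0) : coeff (comp g h) ∅ = 0 := by
  rw [coeff_comp]
  refine div_eq_zero_iff.mpr (Or.inl (Finset.sum_eq_zero fun T _ => ?_))
  by_cases hT : T = ∅
  · rw [hT, hg, zero_mul]
  · obtain ⟨a, ha⟩ := Finset.nonempty_iff_ne_empty.mpr hT
    refine mul_eq_zero_of_right _ (Finset.prod_eq_zero (Finset.mem_univ a) ?_)
    have : fib (∅ : Finset (α × β)) a = ∅ := by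
      ext b; simp [mem_fib]
    simp [ha, this, hh]

omit [Fintype α] in
lemma fib_singleton (a₀ a : α) (b₀ : β) :
    fib ({(a₀, b₀)} : Finset (α × β)) a = if a = a₀ then {b₀} else ∅ := by
  ext b
  by_cases ha : a = a₀
  · simp [mem_fib, ha]
  · simp [mem_fib, ha]

/-- The singleton coefficients of a composition (inner function balanced). -/
lemma coeff_comp_singleton (g : (α → Bool) → Bool) (h : (β → Bool) → Bool)
    (hbal : coeff h ∅ = 0) (a₀ : α) (b₀ : β) :
    coeff (comp g h) {(a₀, b₀)} =
      coeff g {a₀} * coeff h {b₀} * (2 ^ Fintype.card β) ^ (Fintype.card α - 1) /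
        2 ^ Fintype.card α := by
  rw [coeff_comp]
  congr 1
  rw [Finset.sum_eq_single ({a₀} : Finset α)]
  · rw [mul_assoc]
    congr 1
    rw [← Finset.mul_prod_erase Finset.univ _ (Finset.mem_univ a₀)]
    have hrest : ∀ a ∈ (Finset.univ : Finset α).erase a₀,
        (if a ∈ ({a₀} : Finset α) then coeff h (fib ({(a₀, b₀)} : Finset (α × β)) a)
          else if fib ({(a₀, b₀)} : Finset (α × β)) a = ∅ then (2 : ℝ) ^ Fintype.card β else 0)
          = 2 ^ Fintype.card β := by
      intro a ha
      have hne : a ≠ a₀ := Finset.ne_of_mem_erase ha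
      simp [fib_singleton, hne]
    rw [Finset.prod_congr rfl hrest, Finset.prod_const, Finset.card_erase_of_mem (Finset.mem_univ a₀),
      Finset.card_univ]
    simp [fib_singleton]
  · intro T _ hT
    by_cases ha₀ : a₀ ∈ T
    · have : ∃ a ∈ T, a ≠ a₀ := by
        by_contra hcon
        push Not at hcon
        exact hT (Finset.eq_singleton_iff_unique_mem.mpr ⟨ha₀, hcon⟩)
      obtain ⟨a, haT, hne⟩ := this
      refine mul_eq_zero_of_right _ (Finset.prod_eq_zero (Finset.mem_univ a) ?_)
      simp [haT, fib_singleton, hne, hbal]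
    · refine mul_eq_zero_of_right _ (Finset.prod_eq_zero (Finset.mem_univ a₀) ?_)
      simp [ha₀, fib_singleton]
  · intro hcon
    exact absurd (Finset.mem_univ _) hcon

/-- Level-one sums multiply under composition with a balanced inner function. -/
theorem Wsum_comp (g : (α → Bool) → Bool) (h : (β → Bool) → Bool) (hbal : coeff h ∅ = 0) :
    Wsum (comp g h) = Wsum g * Wsum h := by
  unfold Wsum
  rw [Finset.sum_mul_sum, Fintype.sum_prod_type]
  refine Finset.sum_congr rfl fun a₀ _ => Finset.sum_congr rfl fun b₀ _ => ?_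
  rw [coeff_comp_singleton g h hbal a₀ b₀, Fintype.card_prod]
  have hα : 1 ≤ Fintype.card α := Fintype.card_pos_iff.mpr ⟨a₀⟩
  have hpow : (2 : ℝ) ^ (Fintype.card α * Fintype.card β)
      = (2 ^ Fintype.card β) ^ (Fintype.card α - 1) * 2 ^ Fintype.card β := by
    rw [← pow_succ, Nat.sub_add_cancel hα, ← pow_mul, mul_comm]
  rw [hpow]
  have h2 : (2 : ℝ) ^ Fintype.card β ≠ 0 := by positivity
  have h3 : ((2 : ℝ) ^ Fintype.card β) ^ (Fintype.card α - 1) ≠ 0 := by positivity
  have h4 : (2 : ℝ) ^ Fintype.card α ≠ 0 := by positivity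
  field_simp

end Comp

section Reindex

variable {ι κ : Type*} [Fintype ι] [DecidableEq ι] [Fintype κ] [DecidableEq κ]

/-- Transport of a Boolean function along an equivalence of index types. -/
def reindex (e : ι ≃ κ) (f : (ι → Bool) → Bool) : (κ → Bool) → Bool :=
  fun x => f (fun i => x (e i))

lemma coeff_reindex (e : ι ≃ κ) (f : (ι → Bool) → Bool) (S : Finset κ) :
    coeff (reindex e f) S = coeff f (S.map e.symm.toEmbedding) := by
  unfold coeff
  refine Fintype.sum_equiv (Equiv.arrowCongr e.symm (Equiv.refl Bool)) _ _ fun x => ?_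
  have h1 : (Equiv.arrowCongr e.symm (Equiv.refl Bool) x) = fun i => x (e i) := by
    funext i; simp [Equiv.arrowCongr]
  rw [h1]
  simp [reindex, chi, Finset.prod_map]

lemma degLE_reindex (e : ι ≃ κ) {f : (ι → Bool) → Bool} {d : ℕ} (hf : DegLE f d) :
    DegLE (reindex e f) d := by
  intro S hS
  rw [coeff_reindex]
  exact hf _ (by rwa [Finset.card_map])

lemma Wsum_reindex (e : ι ≃ κ) (f : (ι → Bool) → Bool) : Wsum (reindex e f) = Wsum f := by
  unfold Wsum
  rw [Fintype.card_congr e]
  refine Fintype.sum_equiv e.symm _ _ fun k => ?_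
  rw [coeff_reindex, Finset.map_singleton]
  rfl

lemma balanced_reindex (e : ι ≃ κ) {f : (ι → Bool) → Bool} (hf : coeff f ∅ = 0) :
    coeff (reindex e f) ∅ = 0 := by
  rw [coeff_reindex, Finset.map_empty, hf]

end Reindex

section Iterate

variable {α : Type*} [Fintype α] [DecidableEq α]

/-- A constant function has vanishing level-one sum. -/
lemma Wsum_eq_zero_of_const {ι : Type*} [Fintype ι] [DecidableEq ι] (f : (ι → Bool) → Bool)
    (hf : ∀ x y, f x = f y) : Wsum f = 0 := by
  unfold Wsum
  refine Finset.sum_eq_zero fun i _ => ?_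
  have : coeff f {i} = 0 := by
    unfold coeff
    have h1 : ∀ x : ι → Bool, sg (f x) * chi {i} x = sg (f (fun _ => true)) * chi {i} x :=
      fun x => by rw [hf x (fun _ => true)]
    simp only [h1]
    rw [← Finset.mul_sum, sum_chi]
    simp
  rw [this, zero_div]

/-- The `k`-fold self-composition of a balanced gadget, reindexed to `Fin n`. -/
theorem exists_iter (g : (α → Bool) → Bool) (d₀ : ℕ) (hdeg : DegLE g d₀) (hbal : coeff g ∅ = 0)
    (k : ℕ) :
    ∃ (n : ℕ) (f : (Fin n → Bool) → Bool),
      coeff f ∅ = 0 ∧ DegLE f (d₀ ^ k) ∧ Wsum f = Wsum g ^ k := by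
  induction k with
  | zero =>
    refine ⟨1, fun x => x 0, ?_, ?_, ?_⟩
    · unfold coeff chi
      rw [← (Equiv.funUnique (Fin 1) Bool).symm.sum_comp]
      simp
    · intro S hS
      have : S.card ≤ 1 := by
        have := Finset.card_le_univ S
        simpa using this
      simp at hS
      omega
    · unfold Wsum coeff chi
      rw [pow_zero]
      simp only [Finset.univ_unique, Fin.default_eq_zero, Fin.isValue, Finset.sum_singleton,
        Finset.prod_singleton, Fintype.card_fin, pow_one]
      rw [← (Equiv.funUnique (Fin 1) Bool).symm.sum_comp]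
      simp
  | succ k ih =>
    obtain ⟨n, f, hfb, hfd, hfW⟩ := ih
    refine ⟨Fintype.card (α × Fin n), reindex (Fintype.equivFin (α × Fin n)) (comp g f), ?_, ?_, ?_⟩
    · exact balanced_reindex _ (balanced_comp hbal hfb)
    · rw [pow_succ']
      exact degLE_reindex _ (degLE_comp hdeg hfd hfb)
    · rw [Wsum_reindex, Wsum_comp g f hfb, hfW, pow_succ']

/-- **Gadget criterion for S0085.** A balanced Boolean function `g` with all Fourier–Walsh
coefficients above level `d₀` vanishing and level-one sum `> √d₀` yields, for every `C > 0`, a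
witness of statement S0085 (in its literal form). -/
theorem exists_of_gadget (g : (α → Bool) → Bool) (d₀ : ℕ) (hdeg : DegLE g d₀)
    (hbal : coeff g ∅ = 0) (hW : Real.sqrt d₀ < Wsum g) (C : ℝ) (hC : 0 < C) :
    ∃ n : ℕ, ∃ f : (Fin n → Bool) → Bool, ∃ d : ℕ,
      (∃ x y, f x ≠ f y) ∧
      (∀ S : Finset (Fin n), d < S.card →
        ∑ x : Fin n → Bool, ((if f x then (1 : ℝ) else -1) *
          ∏ i ∈ S, (if x i then (1 : ℝ) else -1)) = 0) ∧
      C * Real.sqrt d <
        ∑ i : Fin n, (∑ x : Fin n → Bool, ((if f x then (1 : ℝ) else -1) *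
          (if x i then (1 : ℝ) else -1))) / 2 ^ n := by
  set w := Wsum g with hw
  set r := Real.sqrt d₀ with hr
  have hr0 : 0 ≤ r := Real.sqrt_nonneg _
  have hw0 : 0 < w := lt_of_le_of_lt hr0 hW
  -- choose `k` with `C * r ^ k < w ^ k`
  have hk : ∃ k : ℕ, C * r ^ k < w ^ k := by
    have hlt : r / w < 1 := (div_lt_one hw0).mpr hW
    obtain ⟨k, hk⟩ := exists_pow_lt_of_lt_one (inv_pos.mpr hC) hlt
    refine ⟨k, ?_⟩
    rw [div_pow] at hk
    have hwk : 0 < w ^ k := pow_pos hw0 k
    rw [div_lt_iff₀ hwk] at hk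
    have := mul_lt_mul_of_pos_left hk hC
    rw [← mul_assoc, mul_inv_cancel₀ hC.ne', one_mul] at this
    linarith
  obtain ⟨k, hk⟩ := hk
  obtain ⟨n, f, -, hfd, hfW⟩ := exists_iter g d₀ hdeg hbal k
  refine ⟨n, f, d₀ ^ k, ?_, ?_, ?_⟩
  · by_contra hcon
    push Not at hcon
    have h0 := Wsum_eq_zero_of_const f hcon
    rw [hfW] at h0
    exact (pow_pos hw0 k).ne' h0
  · intro S hS
    exact hfd S hS
  · have hsq : Real.sqrt ((d₀ ^ k : ℕ) : ℝ) = r ^ k := by
      rw [Nat.cast_pow, Real.sqrt_eq_iff_mul_self_eq (by positivity) (by positivity)]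
      rw [← mul_pow, hr, Real.mul_self_sqrt (Nat.cast_nonneg _)]
    rw [hsq]
    have hWf : Wsum f = ∑ i : Fin n, (∑ x : Fin n → Bool, ((if f x then (1 : ℝ) else -1) *
          (if x i then (1 : ℝ) else -1))) / 2 ^ n := by
      unfold Wsum coeff chi
      simp only [Finset.prod_singleton, Fintype.card_fin]
      rfl
    rw [← hWf, hfW]
    exact hk

end Iterate

end

end Crest.Agent.Helper2.BoolCompose
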