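import Crest.Agent.Helper2.BoolCompose

/-!
# Kernel-checkable truth-table verification of a gadget for S0085

A Boolean function on `Fin n → Bool` is given by one natural number `T` (its truth table, see
`ofT`).  All `2 ^ n` Fourier–Walsh coefficients (shifted by `2 ^ n` to make them natural numbers)
are packed into one natural number in base `B` by a fast Walsh–Hadamard recursion `pk` that only
uses arithmetic on natural numbers (`+`, `*`, `-`, `/`, `%`, `^`), which the kernel evaluates with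
big-number arithmetic.  The checks `chk` (degree), `% B` (balancedness) and `sing` (sum of the
singleton coefficients) are then decidable statements about numerals, to be discharged by
`by decide +kernel`.

Main result: `exists_of_table`.
-/

set_option autoImplicit false

namespace Crest.Agent.Helper2.BoolTable

open Finset
open Crest.Agent.Helper2.BoolCompose

/-! ### Integer coefficients -/

/-- Integer sign of a Boolean. -/
def sgI (b : Bool) : ℤ := if b then 1 else -1

@[simp] lemma sgI_true : sgI true = 1 := rfl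
@[simp] lemma sgI_false : sgI false = -1 := rfl
lemma abs_sgI (b : Bool) : |sgI b| = 1 := by cases b <;> simp
lemma sg_eq_cast (b : Bool) : sg b = (sgI b : ℝ) := by cases b <;> simp

/-- Integer-valued (unnormalised) Fourier–Walsh coefficient. -/
def coeffZ {n : ℕ} (f : (Fin n → Bool) → Bool) (S : Finset (Fin n)) : ℤ :=
  ∑ x : Fin n → Bool, sgI (f x) * ∏ i ∈ S, sgI (x i)

lemma coeff_eq_cast {n : ℕ} (f : (Fin n → Bool) → Bool) (S : Finset (Fin n)) :
    coeff f S = (coeffZ f S : ℝ) := by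
  unfold coeff chi coeffZ
  push_cast
  simp only [sg_eq_cast]

lemma abs_coeffZ_le {n : ℕ} (f : (Fin n → Bool) → Bool) (S : Finset (Fin n)) :
    |coeffZ f S| ≤ 2 ^ n := by
  unfold coeffZ
  refine (Finset.abs_sum_le_sum_abs _ _).trans ?_
  have h1 : ∀ x : Fin n → Bool, |sgI (f x) * ∏ i ∈ S, sgI (x i)| = 1 := by
    intro x
    rw [abs_mul, abs_sgI, Finset.abs_prod, one_mul]
    exact Finset.prod_eq_one fun i _ => abs_sgI _
  simp [h1]

/-- Splitting the cube along coordinate `0`. -/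
lemma sum_cube_succ {n : ℕ} (g : (Fin (n + 1) → Bool) → ℤ) :
    ∑ x, g x = ∑ y : Fin n → Bool, g (Fin.cons false y) + ∑ y : Fin n → Bool, g (Fin.cons true y) := by
  rw [← (Fin.consEquiv (fun _ => Bool)).sum_comp, Fintype.sum_prod_type, Fintype.sum_bool, add_comm]
  rfl

lemma zero_notMem_map_succ {n : ℕ} (S : Finset (Fin n)) :
    (0 : Fin (n + 1)) ∉ S.map (Fin.succEmb n) := by
  simp [Fin.succ_ne_zero]

lemma coeffZ_map_succ {n : ℕ} (f : (Fin (n + 1) → Bool) → Bool) (S : Finset (Fin n)) :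
    coeffZ f (S.map (Fin.succEmb n)) =
      coeffZ (fun y => f (Fin.cons false y)) S + coeffZ (fun y => f (Fin.cons true y)) S := by
  unfold coeffZ
  rw [sum_cube_succ]
  congr 1 <;>
  · refine Finset.sum_congr rfl fun y _ => ?_
    rw [Finset.prod_map]
    simp

lemma coeffZ_insert_zero {n : ℕ} (f : (Fin (n + 1) → Bool) → Bool) (S : Finset (Fin n)) :
    coeffZ f (insert 0 (S.map (Fin.succEmb n))) =
      coeffZ (fun y => f (Fin.cons true y)) S - coeffZ (fun y => f (Fin.cons false y)) S := by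
  unfold coeffZ
  rw [sum_cube_succ]
  simp only [Finset.prod_insert (zero_notMem_map_succ S), Finset.prod_map, Fin.cons_zero,
    Fin.coe_succEmb, Fin.cons_succ, sgI_false, sgI_true, one_mul, neg_one_mul, mul_neg,
    Finset.sum_neg_distrib]
  ring

/-- Every subset of `Fin (n+1)` either avoids `0` or contains it. -/
lemma finset_succ_cases {n : ℕ} (S : Finset (Fin (n + 1))) :
    ∃ S' : Finset (Fin n),
      S = S'.map (Fin.succEmb n) ∨ S = insert 0 (S'.map (Fin.succEmb n)) := by
  refine ⟨Finset.univ.filter (fun j => Fin.succ j ∈ S), ?_⟩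
  by_cases h0 : (0 : Fin (n + 1)) ∈ S
  · right
    ext i
    refine Fin.cases ?_ (fun j => ?_) i
    · simp [h0]
    · simp [Fin.succ_ne_zero]
  · left
    ext i
    refine Fin.cases ?_ (fun j => ?_) i
    · simp [h0, Fin.succ_ne_zero]
    · simp

/-! ### Shifted coefficients as natural numbers -/

/-- The coefficient shifted by `2 ^ n`, as a natural number in `[0, 2 ^ (n+1)]`. -/
def uN {n : ℕ} (f : (Fin n → Bool) → Bool) (S : Finset (Fin n)) : ℕ :=
  (coeffZ f S + 2 ^ n).toNat

lemma uN_cast {n : ℕ} (f : (Fin n → Bool) → Bool) (S : Finset (Fin n)) :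
    ((uN f S : ℕ) : ℤ) = coeffZ f S + 2 ^ n := by
  have h := abs_le.mp (abs_coeffZ_le f S)
  unfold uN
  rw [Int.toNat_of_nonneg (by linarith [h.1])]

lemma uN_le {n : ℕ} (f : (Fin n → Bool) → Bool) (S : Finset (Fin n)) :
    uN f S ≤ 2 ^ (n + 1) := by
  have h := abs_le.mp (abs_coeffZ_le f S)
  have h1 : ((uN f S : ℕ) : ℤ) ≤ ((2 ^ (n + 1) : ℕ) : ℤ) := by
    rw [uN_cast]
    push_cast
    rw [pow_succ]
    linarith [h.2]
  exact_mod_cast h1

lemma uN_map_succ {n : ℕ} (f : (Fin (n + 1) → Bool) → Bool) (S : Finset (Fin n)) :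
    uN f (S.map (Fin.succEmb n)) =
      uN (fun y => f (Fin.cons false y)) S + uN (fun y => f (Fin.cons true y)) S := by
  have h : ((uN f (S.map (Fin.succEmb n)) : ℕ) : ℤ) =
      ((uN (fun y => f (Fin.cons false y)) S + uN (fun y => f (Fin.cons true y)) S : ℕ) : ℤ) := by
    push_cast
    rw [uN_cast, uN_cast, uN_cast, coeffZ_map_succ, pow_succ]
    ring
  exact_mod_cast h

lemma uN_insert_zero {n : ℕ} (f : (Fin (n + 1) → Bool) → Bool) (S : Finset (Fin n)) :
    uN f (insert 0 (S.map (Fin.succEmb n))) + uN (fun y => f (Fin.cons false y)) S =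
      uN (fun y => f (Fin.cons true y)) S + 2 ^ (n + 1) := by
  have h : ((uN f (insert 0 (S.map (Fin.succEmb n))) +
      uN (fun y => f (Fin.cons false y)) S : ℕ) : ℤ) =
      ((uN (fun y => f (Fin.cons true y)) S + 2 ^ (n + 1) : ℕ) : ℤ) := by
    push_cast
    rw [uN_cast, uN_cast, uN_cast, coeffZ_insert_zero, pow_succ]
    ring
  exact_mod_cast h

/-! ### Packing a family of numbers indexed by subsets into one number -/

/-- Pack the values `c S`, `S ⊆ Fin n`, into one number in base `B`. -/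
def pack (B : ℕ) : (n : ℕ) → (Finset (Fin n) → ℕ) → ℕ
  | 0, c => c ∅
  | n + 1, c => pack B n (fun S => c (S.map (Fin.succEmb n))) +
      B ^ (2 ^ n) * pack B n (fun S => c (insert 0 (S.map (Fin.succEmb n))))

/-- The repunit `∑_{j < 2^n} B^j`. -/
def rep (B : ℕ) : ℕ → ℕ
  | 0 => 1
  | n + 1 => rep B n + B ^ (2 ^ n) * rep B n

lemma pack_add (B : ℕ) : ∀ (n : ℕ) (c c' : Finset (Fin n) → ℕ),
    pack B n (fun S => c S + c' S) = pack B n c + pack B n c'
  | 0, c, c' => rfl
  | n + 1, c, c' => by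
    simp only [pack]
    rw [pack_add B n, pack_add B n]
    ring

lemma pack_const (B K : ℕ) : ∀ n : ℕ, pack B n (fun _ => K) = K * rep B n
  | 0 => by simp [pack, rep]
  | n + 1 => by
    simp only [pack, rep]
    rw [pack_const B K n]
    ring

lemma pack_mono (B : ℕ) : ∀ (n : ℕ) (c c' : Finset (Fin n) → ℕ), (∀ S, c S ≤ c' S) →
    pack B n c ≤ pack B n c'
  | 0, c, c', h => h ∅
  | n + 1, c, c', h => by
    simp only [pack]
    exact Nat.add_le_add (pack_mono B n _ _ fun S => h _)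
      (Nat.mul_le_mul_left _ (pack_mono B n _ _ fun S => h _))

lemma pack_lt (B : ℕ) : ∀ (n : ℕ) (c : Finset (Fin n) → ℕ), (∀ S, c S < B) →
    pack B n c < B ^ (2 ^ n)
  | 0, c, h => by simpa [pack] using h ∅
  | n + 1, c, h => by
    simp only [pack]
    have h1 := pack_lt B n (fun S => c (S.map (Fin.succEmb n))) (fun S => h _)
    have h2 := pack_lt B n (fun S => c (insert 0 (S.map (Fin.succEmb n)))) (fun S => h _)
    have h3 : B ^ (2 ^ (n + 1)) = B ^ (2 ^ n) * B ^ (2 ^ n) := by
      rw [← pow_add]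
      congr 1
      ring
    rw [h3]
    calc pack B n (fun S => c (S.map (Fin.succEmb n))) +
          B ^ (2 ^ n) * pack B n (fun S => c (insert 0 (S.map (Fin.succEmb n))))
        < B ^ (2 ^ n) + B ^ (2 ^ n) * pack B n (fun S => c (insert 0 (S.map (Fin.succEmb n)))) :=
          Nat.add_lt_add_right h1 _
      _ = B ^ (2 ^ n) * (pack B n (fun S => c (insert 0 (S.map (Fin.succEmb n)))) + 1) := by ring
      _ ≤ B ^ (2 ^ n) * B ^ (2 ^ n) := Nat.mul_le_mul_left _ h2

lemma pack_succ_mod (B : ℕ) (n : ℕ) (c : Finset (Fin (n + 1)) → ℕ) (h : ∀ S, c S < B) :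
    pack B (n + 1) c % B ^ (2 ^ n) = pack B n (fun S => c (S.map (Fin.succEmb n))) := by
  simp only [pack]
  rw [Nat.add_mul_mod_self_left]
  exact Nat.mod_eq_of_lt (pack_lt B n _ fun S => h _)

lemma pack_succ_div (B : ℕ) (n : ℕ) (c : Finset (Fin (n + 1)) → ℕ) (h : ∀ S, c S < B) :
    pack B (n + 1) c / B ^ (2 ^ n) = pack B n (fun S => c (insert 0 (S.map (Fin.succEmb n)))) := by
  have hlt := pack_lt B n (fun S => c (S.map (Fin.succEmb n))) (fun S => h _)
  have hpos : 0 < B ^ (2 ^ n) := lt_of_le_of_lt (Nat.zero_le _) hlt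
  simp only [pack]
  rw [Nat.add_mul_div_left _ _ hpos, Nat.div_eq_of_lt hlt, Nat.zero_add]

lemma pack_mod_base (B : ℕ) : ∀ (n : ℕ) (c : Finset (Fin n) → ℕ), pack B n c % B = c ∅ % B
  | 0, c => rfl
  | n + 1, c => by
    simp only [pack]
    have h1 : B ∣ B ^ (2 ^ n) * pack B n (fun S => c (insert 0 (S.map (Fin.succEmb n)))) :=
      Dvd.dvd.mul_right (dvd_pow_self B (by positivity)) _
    rw [Nat.add_mod, Nat.mod_eq_zero_of_dvd h1, Nat.add_zero, Nat.mod_mod, pack_mod_base B n]
    simp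

lemma pack_inj (B : ℕ) : ∀ (n : ℕ) (c c' : Finset (Fin n) → ℕ), (∀ S, c S < B) →
    (∀ S, c' S < B) → pack B n c = pack B n c' → ∀ S, c S = c' S
  | 0, c, c', _, _, h => by
    intro S
    have hS : S = ∅ := by
      ext i
      exact i.elim0
    subst hS
    exact h
  | n + 1, c, c', hc, hc', h => by
    intro S
    have hm : pack B (n + 1) c % B ^ (2 ^ n) = pack B (n + 1) c' % B ^ (2 ^ n) := by rw [h]
    have hd : pack B (n + 1) c / B ^ (2 ^ n) = pack B (n + 1) c' / B ^ (2 ^ n) := by rw [h]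
    rw [pack_succ_mod B n c hc, pack_succ_mod B n c' hc'] at hm
    rw [pack_succ_div B n c hc, pack_succ_div B n c' hc'] at hd
    obtain ⟨S', hS' | hS'⟩ := finset_succ_cases S
    · subst hS'
      exact pack_inj B n _ _ (fun S => hc _) (fun S => hc' _) hm S'
    · subst hS'
      exact pack_inj B n _ _ (fun S => hc _) (fun S => hc' _) hd S'

/-! ### The function of a truth table and its packed Walsh transform -/

/-- The Boolean function with truth table `T`: coordinate `0` is the most significant index bit,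
i.e. `ofT n T x` is bit number `∑ i, x i * 2 ^ (n - 1 - i)` of `T`. -/
def ofT : (n : ℕ) → ℕ → (Fin n → Bool) → Bool
  | 0, T, _ => decide (T % 2 = 1)
  | n + 1, T, x =>
      if x 0 then ofT n (T / 2 ^ (2 ^ n)) (Fin.tail x) else ofT n (T % 2 ^ (2 ^ n)) (Fin.tail x)

lemma ofT_cons_true (n T : ℕ) :
    (fun y : Fin n → Bool => ofT (n + 1) T (Fin.cons true y)) = ofT n (T / 2 ^ (2 ^ n)) := by
  funext y
  simp [ofT]

lemma ofT_cons_false (n T : ℕ) :
    (fun y : Fin n → Bool => ofT (n + 1) T (Fin.cons false y)) = ofT n (T % 2 ^ (2 ^ n)) := by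
  funext y
  simp [ofT]

/-- The packed shifted Walsh transform of the truth table `T`, computed with natural-number
arithmetic only. -/
def pk (B : ℕ) : ℕ → ℕ → ℕ
  | 0, T => 2 * (T % 2)
  | n + 1, T =>
      pk B n (T / 2 ^ (2 ^ n)) * (1 + B ^ (2 ^ n)) + B ^ (2 ^ n) * (2 ^ (n + 1) * rep B n)
        - pk B n (T % 2 ^ (2 ^ n)) * (B ^ (2 ^ n) - 1)

lemma uN_ofT_zero (T : ℕ) (S : Finset (Fin 0)) : uN (ofT 0 T) S = 2 * (T % 2) := by
  have hS : S = ∅ := by
    ext i
    exact i.elim0
  subst hS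
  unfold uN coeffZ
  rcases Nat.mod_two_eq_zero_or_one T with h | h <;> simp [ofT, h]

theorem pk_eq_pack (B : ℕ) (hB : 0 < B) : ∀ (n T : ℕ), pk B n T = pack B n (uN (ofT n T))
  | 0, T => by
    simp only [pk, pack]
    rw [uN_ofT_zero]
  | n + 1, T => by
    simp only [pk, pack]
    rw [pk_eq_pack B hB n, pk_eq_pack B hB n]
    have e1 : (fun S : Finset (Fin n) => uN (ofT (n + 1) T) (S.map (Fin.succEmb n))) =
        fun S => uN (ofT n (T % 2 ^ (2 ^ n))) S + uN (ofT n (T / 2 ^ (2 ^ n))) S := by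
      funext S
      rw [uN_map_succ, ofT_cons_true, ofT_cons_false]
    have e2 : pack B n (fun S => uN (ofT (n + 1) T) (insert 0 (S.map (Fin.succEmb n)))) +
        pack B n (uN (ofT n (T % 2 ^ (2 ^ n)))) =
        pack B n (uN (ofT n (T / 2 ^ (2 ^ n)))) + 2 ^ (n + 1) * rep B n := by
      rw [← pack_const B (2 ^ (n + 1)) n, ← pack_add, ← pack_add]
      congr 1
      funext S
      have := uN_insert_zero (ofT (n + 1) T) S
      rw [ofT_cons_true, ofT_cons_false] at this
      exact this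
    rw [e1, pack_add]
    obtain ⟨X, hX⟩ : ∃ X, B ^ (2 ^ n) = X + 1 :=
      ⟨B ^ (2 ^ n) - 1, (Nat.sub_add_cancel (Nat.one_le_pow _ _ hB)).symm⟩
    rw [hX] at *
    set a := pack B n (uN (ofT n (T % 2 ^ (2 ^ n))))
    set b := pack B n (uN (ofT n (T / 2 ^ (2 ^ n))))
    set H := pack B n (fun S => uN (ofT (n + 1) T) (insert 0 (S.map (Fin.succEmb n))))
    set K := 2 ^ (n + 1) * rep B n
    rw [Nat.add_sub_cancel]
    apply Nat.sub_eq_of_eq_add
    have e3 : (X + 1) * (H + a) = (X + 1) * (b + K) := by rw [e2]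
    nlinarith [e3]

/-! ### Checks on the packed number -/

/-- Sum of the fields of the singletons. -/
def sing (B : ℕ) : ℕ → ℕ → ℕ
  | 0, _ => 0
  | n + 1, v => (v / B ^ (2 ^ n)) % B + sing B n (v % B ^ (2 ^ n))

lemma sing_pack (B : ℕ) : ∀ (n : ℕ) (c : Finset (Fin n) → ℕ), (∀ S, c S < B) →
    sing B n (pack B n c) = ∑ i : Fin n, c {i}
  | 0, c, _ => by simp [sing]
  | n + 1, c, h => by
    rw [sing, pack_succ_div B n c h, pack_succ_mod B n c h, pack_mod_base,
      sing_pack B n _ (fun S => h _), Fin.sum_univ_succ]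
    congr 1
    rw [Nat.mod_eq_of_lt (h _)]
    simp

/-- Degree check: all fields of index sets with more than `d` elements are equal to `h`. -/
def chk (B h : ℕ) : ℕ → ℕ → ℕ → Bool
  | 0, _, _ => true
  | n + 1, 0, v => chk B h n 0 (v % B ^ (2 ^ n)) && decide (v / B ^ (2 ^ n) = h * rep B n)
  | n + 1, d + 1, v => chk B h n (d + 1) (v % B ^ (2 ^ n)) && chk B h n d (v / B ^ (2 ^ n))

lemma chk_pack (B h : ℕ) (hh : h < B) : ∀ (n d : ℕ) (c : Finset (Fin n) → ℕ), (∀ S, c S < B) →
    chk B h n d (pack B n c) = true → ∀ S : Finset (Fin n), d < S.card → c S = h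
  | 0, d, c, _, _ => by
    intro S hS
    have hS' : S = ∅ := by
      ext i
      exact i.elim0
    subst hS'
    simp at hS
  | n + 1, 0, c, hc, hchk => by
    intro S hS
    rw [chk, pack_succ_div B n c hc, pack_succ_mod B n c hc, Bool.and_eq_true,
      decide_eq_true_eq] at hchk
    obtain ⟨S', hS' | hS'⟩ := finset_succ_cases S
    · subst hS'
      rw [Finset.card_map] at hS
      exact chk_pack B h hh n 0 _ (fun S => hc _) hchk.1 S' hS
    · subst hS'
      have h2 := hchk.2
      rw [← pack_const B h n] at h2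
      exact pack_inj B n _ _ (fun S => hc _) (fun _ => hh) h2 S'
  | n + 1, d + 1, c, hc, hchk => by
    intro S hS
    rw [chk, pack_succ_div B n c hc, pack_succ_mod B n c hc, Bool.and_eq_true] at hchk
    obtain ⟨S', hS' | hS'⟩ := finset_succ_cases S
    · subst hS'
      rw [Finset.card_map] at hS
      exact chk_pack B h hh n (d + 1) _ (fun S => hc _) hchk.1 S' hS
    · subst hS'
      rw [Finset.card_insert_of_notMem (zero_notMem_map_succ S'), Finset.card_map] at hS
      exact chk_pack B h hh n d _ (fun S => hc _) hchk.2 S' (by omega)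

/-! ### The gadget criterion for truth tables -/

section Main

variable (n d T : ℕ)

lemma uN_lt_base (f : (Fin n → Bool) → Bool) (S : Finset (Fin n)) : uN f S < 2 ^ (n + 2) :=
  lt_of_le_of_lt (uN_le f S) (Nat.pow_lt_pow_right (by norm_num) (by omega))

theorem degLE_of_chk (hdeg : chk (2 ^ (n + 2)) (2 ^ n) n d (pk (2 ^ (n + 2)) n T) = true) :
    DegLE (ofT n T) d := by
  intro S hS
  rw [pk_eq_pack _ (by positivity)] at hdeg
  have h1 := chk_pack (2 ^ (n + 2)) (2 ^ n) (Nat.pow_lt_pow_right (by norm_num) (by omega)) n d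
    (uN (ofT n T)) (uN_lt_base n _) hdeg S hS
  have h2 := uN_cast (ofT n T) S
  rw [h1] at h2
  rw [coeff_eq_cast]
  have h3 : coeffZ (ofT n T) S = 0 := by
    push_cast at h2
    linarith
  rw [h3]
  simp

theorem balanced_of_mod (hbal : pk (2 ^ (n + 2)) n T % 2 ^ (n + 2) = 2 ^ n) :
    coeff (ofT n T) ∅ = 0 := by
  rw [pk_eq_pack _ (by positivity), pack_mod_base, Nat.mod_eq_of_lt (uN_lt_base n _ _)] at hbal
  have h2 := uN_cast (ofT n T) ∅
  rw [hbal] at h2
  rw [coeff_eq_cast]
  have h3 : coeffZ (ofT n T) ∅ = 0 := by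
    push_cast at h2
    linarith
  rw [h3]
  simp

theorem Wsum_of_sing :
    Wsum (ofT n T) = ((sing (2 ^ (n + 2)) n (pk (2 ^ (n + 2)) n T) : ℝ) - n * 2 ^ n) / 2 ^ n := by
  rw [pk_eq_pack _ (by positivity), sing_pack _ _ _ (uN_lt_base n _)]
  unfold Wsum
  rw [← Finset.sum_div, Fintype.card_fin]
  congr 1
  have h1 : ∀ i : Fin n, coeff (ofT n T) {i} = (uN (ofT n T) {i} : ℝ) - 2 ^ n := by
    intro i
    rw [coeff_eq_cast]
    have h2 := uN_cast (ofT n T) {i}
    have h3 : ((uN (ofT n T) {i} : ℕ) : ℝ) = ((coeffZ (ofT n T) {i} : ℤ) : ℝ) + 2 ^ n := by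
      exact_mod_cast h2
    rw [h3]
    ring
  rw [Finset.sum_congr rfl fun i _ => h1 i, Finset.sum_sub_distrib]
  simp

/-- **Truth-table gadget criterion for S0085.**  If the Boolean function with truth table `T` on
`n` variables is balanced, has all Fourier–Walsh coefficients above level `d` vanishing, and the
sum `s` of its singleton coefficients satisfies `d * 4^n < (s * 2^n)^2` (with `s > 0`), all three
facts being checked on the packed Walsh transform `pk`, then the conclusion of S0085 holds. -/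
theorem exists_of_table
    (hdeg : chk (2 ^ (n + 2)) (2 ^ n) n d (pk (2 ^ (n + 2)) n T) = true)
    (hbal : pk (2 ^ (n + 2)) n T % 2 ^ (n + 2) = 2 ^ n)
    (hW : d * 4 ^ n < (sing (2 ^ (n + 2)) n (pk (2 ^ (n + 2)) n T) - n * 2 ^ n) ^ 2)
    (C : ℝ) (hC : 0 < C) :
    ∃ m : ℕ, ∃ f : (Fin m → Bool) → Bool, ∃ e : ℕ,
      (∃ x y, f x ≠ f y) ∧
      (∀ S : Finset (Fin m), e < S.card →
        ∑ x : Fin m → Bool, ((if f x then (1 : ℝ) else -1) *
          ∏ i ∈ S, (if x i then (1 : ℝ) else -1)) = 0) ∧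
      C * Real.sqrt e <
        ∑ i : Fin m, (∑ x : Fin m → Bool, ((if f x then (1 : ℝ) else -1) *
          (if x i then (1 : ℝ) else -1))) / 2 ^ m := by
  refine exists_of_gadget (ofT n T) d (degLE_of_chk n d T hdeg) (balanced_of_mod n T hbal) ?_ C hC
  rw [Wsum_of_sing]
  set s := sing (2 ^ (n + 2)) n (pk (2 ^ (n + 2)) n T) with hs
  have hpos : n * 2 ^ n < s := by
    by_contra hcon
    have h0 : s - n * 2 ^ n = 0 := Nat.sub_eq_zero_of_le (not_lt.mp hcon)
    rw [h0] at hW
    simp at hW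
  have hsub : ((s - n * 2 ^ n : ℕ) : ℝ) = (s : ℝ) - n * 2 ^ n := by
    rw [Nat.cast_sub hpos.le]
    push_cast
    ring
  have hW' : ((d * 4 ^ n : ℕ) : ℝ) < (((s - n * 2 ^ n) ^ 2 : ℕ) : ℝ) := by exact_mod_cast hW
  rw [Nat.cast_pow, hsub] at hW'
  push_cast at hW'
  have h2n : (0 : ℝ) < 2 ^ n := by positivity
  have hnum : (0 : ℝ) < (s : ℝ) - n * 2 ^ n := by
    have : ((n * 2 ^ n : ℕ) : ℝ) < (s : ℝ) := by exact_mod_cast hpos
    push_cast at this
    linarith
  rw [Real.sqrt_lt' (div_pos hnum h2n), div_pow, lt_div_iff₀ (by positivity)]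
  have h4 : ((2 : ℝ) ^ n) ^ 2 = 4 ^ n := by
    rw [← pow_mul, mul_comm, pow_mul]
    norm_num
  rw [h4]
  exact hW'

end Main

end Crest.Agent.Helper2.BoolTable
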